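import Vale.Agent.P354YP.F1W

/-!
The estimate of the four pairs, as stated.
-/

namespace Vale.Agent.P354YP

open Vale.Agent.P354XZ

variable {A : Type} [CommRing A] [Algebra ℂ A] (C : Ch A) (F F0 : NF A) (t : Fin 4 → A)
  (K : P354XZ.Cut C)

theorem f1w' : F1W C F F0 t K := fun s => f1w s.cut.near s

theorem f1 : F1 C F F0 t K := fun s => by
  obtain ⟨c, c0, B, h⟩ := f1w' C F F0 t K s
  refine ⟨c, c0, B, fun j hj l hl ps p a V SA SB S => ?_⟩
  simpa using h j hj l hl ps p Unit a (fun _ _ => 0) (fun _ => V) (fun _ => SA) (fun _ => SB)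
    ⟨fun _ i => by simpa using S.eqA i, fun _ i => by simpa using S.eqB i⟩

end Vale.Agent.P354YP
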