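import Vale.Agent.P354YP.Chain2
import Vale.Agent.P354XZ.Props

/-!
The normalised frame of the far zone: divergences, reality, derivatives of functions of (u, r).
-/

open scoped ContDiff

namespace Vale.Agent.P354YP

open Vale.Agent.P354XG (Der D_mul D_add D_sub D_neg D_alg)
open Vale.Agent.P354XI Vale.Agent.P354XI.Ibp Vale.Agent.P354XZ Finset

variable {A : Type} [CommRing A] [Algebra ℂ A] {C : Ch A}

/-- The divergence of the field with the components a. -/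
noncomputable def dv (C : Ch A) (a : Fin 5 → A) : A :=
  C.T (a 0) + C.R (a 1) + C.an 0 (a 2) + C.an 1 (a 3) + C.an 2 (a 4)

theorem vf_ap (a : Fin 5 → A) (f : A) : C.vf a f =
    a 0 * C.T f + a 1 * C.R f + a 2 * C.an 0 f + a 3 * C.an 1 f + a 4 * C.an 2 f := by
  simp [Ch.vf, Ch.D, Fin.sum_univ_five]

theorem vf_eq (a : Fin 5 → A) : C.vf a =
    a 0 • C.T + a 1 • C.R + a 2 • C.an 0 + a 3 • C.an 1 + a 4 • C.an 2 := by
  ext f; simp [vf_ap]

section
variable {J : Type} {φ ψ : Fam J}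

theorem smF_iff : SmF φ ↔ ∀ j, ∀ q : ℝ × ℝ, 0 < q.2 →
    ContDiffAt ℝ ∞ (fun p : ℝ × ℝ => φ j p.1 p.2) q :=
  forall_congr' fun _ => ⟨fun h _ hq => h.contDiffAt ((isOpen_lt continuous_const
    continuous_snd).mem_nhds hq), fun h q hq => (h q hq).contDiffWithinAt⟩

theorem smF_mul (h : SmF φ) (h' : SmF ψ) : SmF (φ * ψ) := fun j => (h j).mul (h' j)
theorem smF_add (h : SmF φ) (h' : SmF ψ) : SmF (φ + ψ) := fun j => (h j).add (h' j)
theorem smF_div (h : SmF φ) (h' : SmF ψ) (e : ∀ j u r, 0 < r → ψ j u r ≠ 0) : SmF (φ / ψ) :=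
  fun j => (h j).div (h' j) fun q hq => e j q.1 q.2 hq
theorem smF_sq (h : SmF φ) : SmF (φ ^ 2) := fun j => (h j).pow 2
theorem smF_zero : SmF (0 : Fam J) := fun _ => contDiffOn_const

theorem SmF.du (h : SmF φ) {j : J} {u r : ℝ} (hr : 0 < r) : HasDerivAt (fun u => φ j u r)
    (fderiv ℝ (fun p : ℝ × ℝ => φ j p.1 p.2) (u, r) (1, 0)) u :=
  ((smF_iff.1 h j (u, r) hr).differentiableAt (by simp)).hasFDerivAt.comp_hasDerivAt u
    (f := fun u => (u, r)) ((hasDerivAt_id u).prodMk (hasDerivAt_const u r))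

theorem SmF.dr (h : SmF φ) {j : J} {u r : ℝ} (hr : 0 < r) : HasDerivAt (φ j u)
    (fderiv ℝ (fun p : ℝ × ℝ => φ j p.1 p.2) (u, r) (0, 1)) r :=
  ((smF_iff.1 h j (u, r) hr).differentiableAt (by simp)).hasFDerivAt.comp_hasDerivAt r
    ((hasDerivAt_const r u).prodMk (hasDerivAt_id r))

theorem smF_fd (h : SmF φ) (v : ℝ × ℝ) (j : J) : ContDiffOn ℝ ∞
    (fun q => fderiv ℝ (fun p : ℝ × ℝ => φ j p.1 p.2) q v) {p | 0 < p.2} := fun q hq =>
  (((smF_iff.1 h j q hq).fderiv_right (m := ∞) (by simp)).clm_apply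
    contDiffAt_const).contDiffWithinAt

theorem smF_du (h : SmF φ) : SmF fun j u r => deriv (fun u => φ j u r) u := fun j =>
  (smF_fd h (1, 0) j).congr fun _ hq => (SmF.du h hq).deriv

theorem smF_dr (h : SmF φ) : SmF fun j u r => deriv (φ j u) r := fun j =>
  (smF_fd h (0, 1) j).congr fun _ hq => (SmF.dr h hq).deriv

end

section
variable (h : C.Is)
include h

theorem dv_vf (j : C.J) (a : Fin 5 → A) : (C.B j).Dv (C.vf a) (dv C a) := by
  rw [vf_eq]
  exact ((((((h.skT j).dv.smul _).add ((h.skR j).dv.smul _)).add ((h.dva j 0).smul _)).add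
    ((h.dva j 1).smul _)).add ((h.dva j 2).smul _)).congr (by simp [dv])

theorem cc (j : C.J) (f : A) : C.c (C.c f) = f := h.c_eq j ▸ (h.ibp j).cc f

theorem c_vf (j : C.J) (a : Fin 5 → A) (f : A) :
    C.c (C.vf a f) = C.vf (C.cj a) (C.c f) := by
  have e1 : C.c (C.T f) = C.T (C.c f) := h.c_eq j ▸ (h.skT j).re f
  have e2 : C.c (C.R f) = C.R (C.c f) := h.c_eq j ▸ (h.skR j).re f
  have e3 : C.c (C.an 1 f) = C.an 0 (C.c f) := by
    have := congrArg C.c (h.c_P (C.c f))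
    rwa [cc h j, cc h j, eq_comm] at this
  simp only [vf_ap, map_add, map_mul, e1, e2, e3, h.c_P, h.c_V, Ch.cj, Matrix.cons_val]
  ring

theorem c_n {F : NF A} (f : F.Is C) (j : C.J) (g : A) : C.c (F.n C g) = F.n C (C.c g) := by
  have k : ∀ g, C.vf (2 * F.nc - 2 * C.cj F.nc) g + (F.ga - C.c F.ga) * C.S g = 0 := fun g => by
    have e1 := f.tp g
    have e2 := congrArg C.c (f.tp (C.c g))
    have e3 : C.c (F.G.tp (C.c g)) = F.G.tp g := by
      rw [← f.c_eq, f.is.c_tp, f.is.cc]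
    simp only [map_add, map_mul, map_ofNat, h.c_N, e3, c_vf h j, h.c_S, cc h j] at e2
    simp only [vf_ap, Pi.sub_apply, Pi.mul_apply, Pi.ofNat_apply] at e1 e2 ⊢
    linear_combination e2 - e1
  have e := (h.indep _ _ k).1
  have u : ∀ i, C.cj F.nc i = F.nc i := fun i => by
    have := congrFun e i
    simp only [Pi.sub_apply, Pi.mul_apply, Pi.ofNat_apply] at this
    have t : algebraMap ℂ A (1 / 2) * 2 = 1 := by
      rw [← map_ofNat (algebraMap ℂ A) 2, ← map_mul]; norm_num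
    linear_combination -algebraMap ℂ A (1 / 2) * this - (C.cj F.nc i - F.nc i) * t
  rw [NF.n, c_vf h j, funext u]

/-- The frame. -/
theorem frame {F : NF A} (f : F.Is C) (j : C.J) : Fr (C.B j) C.R (F.n C) (F.m C) (F.mb C) 0
    (dv C F.nc) (dv C F.mc) (dv C (C.cj F.mc)) where
  vl := (h.skR j).dv
  vn := dv_vf h j _
  vm := dv_vf h j _
  vb := dv_vf h j _
  cl := (h.skR j).re
  cn g := by rw [h.c_eq]; exact c_n h f j g
  cm g := by rw [h.c_eq]; exact c_vf h j _ g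
  cb g := by
    have := congrArg C.c (c_vf h j F.mc (C.c g))
    rw [cc h j, cc h j] at this
    rw [h.c_eq]; exact this.symm

theorem one_le_R0 (j : C.J) : 1 ≤ C.R0 j := (h.one_le j).1
theorem R0_le (x : C.Pt) : C.R0 x.1 ≤ C.rr x := (h.rng _ _ (h.dom x)).1
theorem one_le_rr (x : C.Pt) : 1 ≤ C.rr x := (one_le_R0 h _).trans (R0_le h x)
theorem rr_pos (x : C.Pt) : 0 < C.rr x := one_pos.trans_le (one_le_rr h x)
theorem one_le_U0 (j : C.J) : 1 ≤ C.U0 j := (h.one_le j).1.trans (h.one_le j).2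

theorem re_fn {φ : Fam C.J} (s : SmF φ) (j : C.J) : (C.B j).Re (C.fn φ) := by
  rw [Re, h.c_eq]; exact h.fn_c φ s

theorem val_fn {φ : Fam C.J} (s : SmF φ) (x : C.Pt) : C.val x (C.fn φ) = C.at' φ x := by
  rw [Ch.val, Ibp.val, h.fn_val φ s, Complex.ofReal_re]

theorem re_r (j : C.J) : (C.B j).Re C.r := by rw [Re, h.c_eq, h.c_r]

theorem re_ri (j : C.J) : (C.B j).Re C.ri := by
  have := congrArg C.c h.hr
  rw [map_mul, h.c_r, map_one] at this
  rw [Re, h.c_eq]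
  linear_combination C.ri * this - C.c C.ri * h.hr

theorem val_ri (x : C.Pt) : C.val x C.ri = (C.rr x)⁻¹ := by
  have := congrArg (C.val x) h.hr
  rw [Ch.val, Ch.val, (h.ibp _).val_mul (re_r h _), val_one] at this
  exact eq_inv_of_mul_eq_one_right this

theorem md_ri (x : C.Pt) : C.md x C.ri = (C.rr x)⁻¹ := by
  rw [Ch.md, (h.ibp _).md_re (re_ri h _), ← Ch.val, val_ri h,
    abs_of_pos (inv_pos.2 (rr_pos h x))]

theorem md_r (x : C.Pt) : C.md x C.r = C.rr x := by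
  rw [Ch.md, (h.ibp _).md_re (re_r h _)]; exact abs_of_pos (rr_pos h x)

/-- The derivative of a function of (u, r). -/
theorem ev_vf_fn {φ : Fam C.J} (s : SmF φ) (a : Fin 5 → A) (x : C.Pt) {p q : ℝ}
    (hp : HasDerivAt (fun u => φ x.1 u (C.rr x)) p (C.uu x))
    (hq : HasDerivAt (φ x.1 (C.uu x)) q (C.rr x)) :
    (C.B x.1).ev x.2 (C.vf a (C.fn φ)) =
      p * (C.B x.1).ev x.2 (a 0) + q * (C.B x.1).ev x.2 (a 1) := by
  simp only [vf_ap, h.fn_an φ s, h.fn_T φ s, h.fn_R φ s, map_add, map_mul, mul_zero, add_zero,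
    h.fn_val _ (smF_du s), h.fn_val _ (smF_dr s), Ch.at', hp.deriv, hq.deriv]
  ring

theorem val_vf_fn {φ : Fam C.J} (s : SmF φ) (a : Fin 5 → A) (x : C.Pt) {p q : ℝ}
    (hp : HasDerivAt (fun u => φ x.1 u (C.rr x)) p (C.uu x))
    (hq : HasDerivAt (φ x.1 (C.uu x)) q (C.rr x)) :
    C.val x (C.vf a (C.fn φ)) = p * C.val x (a 0) + q * C.val x (a 1) := by
  simp only [Ch.val, Ibp.val, ev_vf_fn h s a x hp hq, Complex.add_re, Complex.re_ofReal_mul]

theorem md_vf_fn {φ : Fam C.J} (s : SmF φ) (a : Fin 5 → A) (x : C.Pt) {p q : ℝ}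
    (hp : HasDerivAt (fun u => φ x.1 u (C.rr x)) p (C.uu x))
    (hq : HasDerivAt (φ x.1 (C.uu x)) q (C.rr x)) :
    C.md x (C.vf a (C.fn φ)) ≤ |p| * C.md x (a 0) + |q| * C.md x (a 1) := by
  simp only [Ch.md, Ibp.md, ev_vf_fn h s a x hp hq]
  refine (norm_add_le _ _).trans (le_of_eq ?_)
  simp

theorem val_R_fn {φ : Fam C.J} (s : SmF φ) (x : C.Pt) {q : ℝ}
    (hq : HasDerivAt (φ x.1 (C.uu x)) q (C.rr x)) : C.val x (C.R (C.fn φ)) = q := by
  rw [h.fn_R φ s, val_fn h (smF_dr s), Ch.at', hq.deriv]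

end

end Vale.Agent.P354YP
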