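import Vale.Agent.P354YF.Hardy

/-!
The explicit weights of the far zone as functions of (u, r), with their derivatives.
-/

set_option linter.unusedSectionVars false

open scoped ContDiff

namespace Vale.Agent.P354YP

open Vale.Agent.P354YF (mon Dom)

/-- The smooth modulus of u. -/
noncomputable def ut (R u : ℝ) : ℝ := √(u ^ 2 + R ^ 2)
noncomputable def yy (R u : ℝ) : ℝ := u + ut R u
/-- The smooth positive part of u. -/
noncomputable def up (R u : ℝ) : ℝ := yy R u / 2 + R
noncomputable def sy (R nu u : ℝ) : ℝ := Real.exp (nu * Real.log (yy R u / R))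
/-- The ghost weight and minus its logarithmic derivative. -/
noncomputable def gw (R nu u : ℝ) : ℝ := 1 + (1 + sy R nu u)⁻¹
noncomputable def gd (R nu u : ℝ) : ℝ :=
  nu * sy R nu u / ((1 + sy R nu u) ^ 2 * ut R u) / gw R nu u
/-- The advanced time. -/
noncomputable def vv (R u r : ℝ) : ℝ := ut R u + 2 * r

variable {R nu u r : ℝ}

theorem ut_sq : ut R u ^ 2 = u ^ 2 + R ^ 2 := Real.sq_sqrt (by positivity)
theorem ut_nonneg : 0 ≤ ut R u := Real.sqrt_nonneg _
theorem le_ut : R ≤ ut R u := Real.le_sqrt_of_sq_le (by nlinarith [sq_nonneg u])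
theorem abs_le_ut : |u| ≤ ut R u := Real.abs_le_sqrt (by nlinarith [sq_nonneg R])
theorem ut_le (h : 0 ≤ R) : ut R u ≤ |u| + R :=
  Real.sqrt_le_iff.2 ⟨by positivity, by nlinarith [sq_abs u, mul_nonneg (abs_nonneg u) h]⟩
theorem sy_pos : 0 < sy R nu u := Real.exp_pos _
theorem one_lt_gw : 1 < gw R nu u := by
  have := sy_pos (R := R) (nu := nu) (u := u)
  rw [gw]; exact lt_add_of_pos_right _ (by positivity)
theorem gw_le : gw R nu u ≤ 2 := by
  have := sy_pos (R := R) (nu := nu) (u := u)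
  have := inv_le_one_of_one_le₀ (show 1 ≤ 1 + sy R nu u by linarith)
  rw [gw]; linarith

section
variable (h : 1 ≤ R)
include h

theorem one_le_ut : 1 ≤ ut R u := h.trans le_ut
theorem ut_pos : 0 < ut R u := one_pos.trans_le (one_le_ut h)
theorem yy_mul : yy R u * (ut R u - u) = R ^ 2 := by rw [yy]; linear_combination ut_sq (R := R) (u := u)
theorem yy_le : yy R u ≤ 2 * ut R u := by
  rw [yy]; linarith [(abs_le.1 (abs_le_ut (R := R) (u := u))).2]
theorem yy_pos : 0 < yy R u := by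
  have a := (abs_le.1 (abs_le_ut (R := R) (u := u))).1
  have b := yy_mul (u := u) h
  refine lt_of_le_of_ne (by rw [yy]; linarith) fun e => ?_
  rw [← e, zero_mul] at b
  nlinarith
theorem up_pos : 0 < up R u := by have := yy_pos (u := u) h; rw [up]; linarith
theorem le_up : R ≤ up R u := by have := yy_pos (u := u) h; rw [up]; linarith
theorem up_le : up R u ≤ 2 * ut R u := by
  rw [up]; linarith [yy_le (u := u) h, le_ut (R := R) (u := u)]
theorem ut_le_up (hu : 0 ≤ u) : ut R u ≤ 2 * up R u := by rw [up, yy]; linarith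

theorem d_ut : HasDerivAt (ut R) (u / ut R u) u := by
  have : HasDerivAt (fun u : ℝ => u ^ 2 + R ^ 2) (2 * u) u := by
    simpa using (hasDerivAt_pow 2 u).add_const (R ^ 2)
  refine (this.sqrt (by positivity)).congr_deriv ?_
  rw [ut]; field_simp

theorem d_yy : HasDerivAt (yy R) (yy R u / ut R u) u := by
  refine ((hasDerivAt_id u).add (d_ut h)).congr_deriv ?_
  have := ut_pos (u := u) h
  rw [yy]; field_simp; ring

theorem d_up : HasDerivAt (up R) (yy R u / ut R u / 2) u := ((d_yy h).div_const 2).add_const R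

theorem d_sy : HasDerivAt (sy R nu) (nu * sy R nu u / ut R u) u := by
  have a := yy_pos (u := u) h
  refine (((((d_yy h).div_const R).log (by positivity)).const_mul nu).exp).congr_deriv ?_
  rw [sy]; field_simp

theorem d_gw : HasDerivAt (gw R nu) (-(gd R nu u * gw R nu u)) u := by
  have a := sy_pos (R := R) (nu := nu) (u := u)
  have b := one_lt_gw (R := R) (nu := nu) (u := u)
  have c := ut_pos (u := u) h
  refine ((((d_sy h).const_add 1).inv (by positivity)).const_add 1).congr_deriv ?_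
  rw [gd]; field_simp

theorem gd_le (h1 : nu ≤ 1) : gd R nu u ≤ (ut R u)⁻¹ := by
  have a := sy_pos (R := R) (nu := nu) (u := u)
  have b := one_lt_gw (R := R) (nu := nu) (u := u)
  have c := ut_pos (u := u) h
  rw [gd, div_div, div_le_iff₀ (by positivity), mul_comm _ (ut R u), mul_assoc (ut R u),
    inv_mul_cancel_left₀ c.ne']
  nlinarith [mul_le_mul_of_nonneg_right h1 a.le, sq_nonneg (sy R nu u),
    mul_le_mul_of_nonneg_left b.le (sq_nonneg (1 + sy R nu u))]

theorem le_gd (h0 : 0 ≤ nu) (h1 : nu ≤ 1) : nu / 16 * ut R u ^ (-1 - nu) ≤ gd R nu u := by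
  have a := sy_pos (R := R) (nu := nu) (u := u)
  have b := one_lt_gw (R := R) (nu := nu) (u := u)
  have c := ut_pos (u := u) h
  have c1 := one_le_ut (u := u) h
  have y := yy_pos (u := u) h
  have R0 : 0 < R := by linarith
  have t1 : 1 ≤ ut R u ^ nu := Real.one_le_rpow c1 h0
  have k : ∀ z : ℝ, 0 < z → z ≤ 2 * ut R u → Real.exp (nu * Real.log z) ≤ 2 * ut R u ^ nu :=
    fun z hz e => by
      rw [mul_comm nu, ← Real.rpow_def_of_pos hz]
      refine (Real.rpow_le_rpow hz.le e h0).trans ?_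
      rw [Real.mul_rpow zero_le_two c.le]
      refine mul_le_mul_of_nonneg_right ?_ (by positivity)
      simpa using Real.rpow_le_rpow_of_exponent_le one_le_two h1
  have s1 : sy R nu u ≤ 2 * ut R u ^ nu :=
    k _ (by positivity) ((div_le_self y.le h).trans (yy_le h))
  have s2 : (sy R nu u)⁻¹ ≤ 2 * ut R u ^ nu := by
    rw [sy, ← Real.exp_neg, ← mul_neg, ← Real.log_inv, inv_div]
    refine k _ (by positivity) ?_
    rw [div_le_iff₀ y]
    nlinarith [yy_mul (u := u) h, mul_le_mul_of_nonneg_left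
      (abs_le.1 (abs_le_ut (R := R) (u := u))).1 y.le]
  rw [inv_le_iff_one_le_mul₀ a] at s2
  have s3 : (1 + sy R nu u) ^ 2 ≤ 8 * ut R u ^ nu * sy R nu u := by
    nlinarith [mul_le_mul_of_nonneg_right s1 a.le, mul_le_mul_of_nonneg_right t1 a.le]
  rw [gd, div_div, le_div_iff₀ (by positivity), show -1 - nu = -(1 + nu) by ring,
    Real.rpow_neg c.le, Real.rpow_add c, Real.rpow_one]
  have e : (1 + sy R nu u) ^ 2 * ut R u * gw R nu u ≤ 8 * ut R u ^ nu * sy R nu u * ut R u * 2 := by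
    gcongr
    exact gw_le
  refine (mul_le_mul_of_nonneg_left e (by positivity)).trans (le_of_eq ?_)
  field_simp
  ring

theorem gd_nonneg (h0 : 0 ≤ nu) : 0 ≤ gd R nu u := by
  have a := sy_pos (R := R) (nu := nu) (u := u)
  have b := one_lt_gw (R := R) (nu := nu) (u := u)
  have c := ut_pos (u := u) h
  rw [gd]; positivity

theorem c_ut : ContDiff ℝ ∞ (ut R) :=
  ContDiff.sqrt (by fun_prop) fun u => by positivity
theorem c_yy : ContDiff ℝ ∞ (yy R) := contDiff_id.add (c_ut h)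
theorem c_up : ContDiff ℝ ∞ (up R) := ((c_yy h).div_const 2).add contDiff_const
theorem c_sy : ContDiff ℝ ∞ (sy R nu) :=
  (contDiff_const.mul (((c_yy h).div_const R).log fun u => by
    have := yy_pos (u := u) h
    positivity)).exp
theorem c_gw : ContDiff ℝ ∞ (gw R nu) :=
  contDiff_const.add ((contDiff_const.add (c_sy h)).inv fun u => by
    have := sy_pos (R := R) (nu := nu) (u := u)
    positivity)

end

/-- The monomial r^a v^b ut^c, and the weight with the factor up^e and the ghost. -/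
noncomputable def pw (R : ℝ) (p : ℝ × ℝ × ℝ) (q : ℝ × ℝ) : ℝ :=
  mon p q.2 (vv R q.1 q.2) (ut R q.1)
noncomputable def wf (R nu : ℝ) (p : ℝ × ℝ × ℝ) (e : ℝ) (q : ℝ × ℝ) : ℝ :=
  pw R p q * (up R q.1 ^ e * gw R nu q.1)

/-- The logarithmic derivatives. -/
noncomputable def pu (R : ℝ) (p : ℝ × ℝ × ℝ) (u r : ℝ) : ℝ :=
  p.2.1 * (u / ut R u / vv R u r) + p.2.2 * (u / ut R u / ut R u)
noncomputable def pr (R : ℝ) (p : ℝ × ℝ × ℝ) (u r : ℝ) : ℝ := p.1 / r + p.2.1 * (2 / vv R u r)
noncomputable def wu (R nu : ℝ) (p : ℝ × ℝ × ℝ) (e u r : ℝ) : ℝ :=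
  pu R p u r + e * (yy R u / ut R u / 2 / up R u) - gd R nu u

/-- Smooth on the half plane. -/
def Sm2 (f : ℝ × ℝ → ℝ) : Prop := ∀ q : ℝ × ℝ, 0 < q.2 → ContDiffAt ℝ ∞ f q

theorem Sm2.mul {f g : ℝ × ℝ → ℝ} (hf : Sm2 f) (hg : Sm2 g) : Sm2 fun q => f q * g q :=
  fun q hq => (hf q hq).mul (hg q hq)
theorem sm2_const (c : ℝ) : Sm2 fun _ => c := fun _ _ => contDiffAt_const
theorem sm2_fst {f : ℝ → ℝ} (hf : ContDiff ℝ ∞ f) : Sm2 fun q => f q.1 :=
  fun _ _ => (hf.comp contDiff_fst).contDiffAt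

section
variable (h : 1 ≤ R) {p : ℝ × ℝ × ℝ} {e : ℝ}
include h

theorem vv_pos (hr : 0 < r) : 0 < vv R u r := by have := ut_pos (u := u) h; rw [vv]; linarith

theorem pw_pos (hr : 0 < r) : 0 < pw R p (u, r) :=
  P354YF.mon_pos _ hr (vv_pos h hr) (ut_pos h)

theorem wf_pos (hr : 0 < r) : 0 < wf R nu p e (u, r) :=
  mul_pos (pw_pos h hr) (mul_pos (Real.rpow_pos_of_pos (up_pos h) _) (one_pos.trans one_lt_gw))

theorem pw_add (p' : ℝ × ℝ × ℝ) (hr : 0 < r) :
    pw R (p + p') (u, r) = pw R p (u, r) * pw R p' (u, r) :=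
  P354YF.mon_add _ _ hr (vv_pos h hr) (ut_pos h)

theorem pw_le {p' : ℝ × ℝ × ℝ} (d : Dom p p') (hr : 1 ≤ r) :
    pw R p (u, r) ≤ 4 ^ |p.2.1 - p'.2.1| * pw R p' (u, r) := by
  have := ut_pos (u := u) h
  exact d.le hr (one_le_ut h) (by rw [vv]; linarith) (by rw [vv]; linarith) le_rfl

theorem sm2_pw : Sm2 (pw R p) := fun q hq => by
  have a : ContDiffAt ℝ ∞ (fun q : ℝ × ℝ => ut R q.1) q := sm2_fst (c_ut h) q hq
  have b : ContDiffAt ℝ ∞ (fun q : ℝ × ℝ => vv R q.1 q.2) q :=
    a.add (contDiffAt_const.mul contDiffAt_snd)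
  exact ((contDiffAt_snd.rpow_const_of_ne hq.ne').mul
    (b.rpow_const_of_ne (vv_pos h hq).ne')).mul (a.rpow_const_of_ne (ut_pos h).ne')

theorem sm2_wf : Sm2 (wf R nu p e) :=
  (sm2_pw h).mul (Sm2.mul (fun q hq => (sm2_fst (c_up h) q hq).rpow_const_of_ne (up_pos h).ne')
    (sm2_fst (c_gw h)))

theorem du_pw (hr : 0 < r) :
    HasDerivAt (fun t => pw R p (t, r)) (pw R p (u, r) * pu R p u r) u := by
  have a := ut_pos (u := u) h
  have b := vv_pos (u := u) h hr
  have c : HasDerivAt (fun t => vv R t r) (u / ut R u) u := (d_ut h).add_const _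
  refine (((c.rpow_const (p := p.2.1) (Or.inl b.ne')).const_mul (r ^ p.1)).mul
    ((d_ut h).rpow_const (p := p.2.2) (Or.inl a.ne'))).congr_deriv ?_
  simp only [pw, pu, mon, Real.rpow_sub_one a.ne', Real.rpow_sub_one b.ne']
  ring

theorem dr_pw (hr : 0 < r) :
    HasDerivAt (fun t => pw R p (u, t)) (pw R p (u, r) * pr R p u r) r := by
  have b := vv_pos (u := u) h hr
  have c : HasDerivAt (fun t => vv R u t) 2 r := by
    simpa [vv] using ((hasDerivAt_id r).const_mul 2).const_add (ut R u)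
  refine ((((hasDerivAt_id r).rpow_const (p := p.1) (Or.inl hr.ne')).mul
    (c.rpow_const (p := p.2.1) (Or.inl b.ne'))).mul_const (ut R u ^ p.2.2)).congr_deriv ?_
  simp only [pw, pr, mon, id, Real.rpow_sub_one hr.ne', Real.rpow_sub_one b.ne']
  ring

theorem du_wf (hr : 0 < r) :
    HasDerivAt (fun t => wf R nu p e (t, r)) (wf R nu p e (u, r) * wu R nu p e u r) u := by
  have a := up_pos (u := u) h
  refine ((du_pw h hr).mul (((d_up h).rpow_const (p := e) (Or.inl a.ne')).mul
    (d_gw h))).congr_deriv ?_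
  simp only [wf, wu, Real.rpow_sub_one a.ne', Pi.mul_apply]
  ring

theorem dr_wf (hr : 0 < r) :
    HasDerivAt (fun t => wf R nu p e (u, t)) (wf R nu p e (u, r) * pr R p u r) r := by
  refine ((dr_pw (p := p) (u := u) h hr).mul_const (up R u ^ e * gw R nu u)).congr_deriv ?_
  simp only [wf]
  ring

end

end Vale.Agent.P354YP
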