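import Vale.Agent.P354YP.Pair

/-!
The pair estimate with a causal cut off, and the chain of the four pairs.
-/

namespace Vale.Agent.P354YP

open Vale.Agent.P354XG (Der D_mul D_add D_sub D_neg D_alg)
open Vale.Agent.P354XI Vale.Agent.P354XI.Ibp Finset

variable {A : Type} [CommRing A] [Algebra ℂ A]
variable {B : Ibp A} {l n m mb : Der A} {dl dn dm dmb : A}

theorem val_sq (h : B.Is) (u f : A) (x : B.Pt) :
    B.val x (u * (f * B.c f)) = B.val x u * B.md x f ^ 2 := by
  have r : B.Re (f * B.c f) := by rw [Re, map_mul, h.cc, mul_comm]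
  rw [mul_comm u, h.val_mul r, h.val_ip, ip_self, mul_comm]

/-- The pair estimate from the positivity of a quadratic form at every point. -/
theorem pair_pt (h : B.Is) (F : Fr B l n m mb dl dn dm dmb) {w : A} (hw : w ∈ B.K) (hr : B.Re w)
    {a b p q S S' Ga Gb : A} (ha : n a = m b + p * a + S) (hb : l b = mb a + q * b + S')
    (ka : Ga ∈ B.K) (kb : Gb ∈ B.K)
    (e : ∀ x, ∃ s t : ℝ, 0 ≤ s ∧ 0 ≤ t ∧ B.val x (n w + dn * w + 2 * (w * p)) + B.val x Ga + s ≤ 0 ∧
      B.val x (l w + dl * w + 2 * (w * q)) + B.val x Gb + t ≤ 0 ∧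
      B.md x (m w + dm * w) ^ 2 ≤ s * t) :
    B.nsq Ga a + B.nsq Gb b ≤ 2 * (B.bil w S a + B.bil w S' b) := by
  have k : ∀ (D : Der A) (d u : A), B.Dv D d → D w + d * w + 2 * (w * u) ∈ B.K := fun D d u v =>
    B.K.add_mem (B.K.add_mem (v.K_D w hw) (B.K.mul_mem_left _ hw))
      (B.K.mul_mem_left _ (B.K.mul_mem_right _ hw))
  have i := pair_id h F hw hr ha hb
  have km := B.K.add_mem (F.vm.K_D w hw) (B.K.mul_mem_left dm hw)
  have := h.J_le (f := (n w + dn * w + 2 * (w * p) + Ga) * (a * B.c a) +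
      (l w + dl * w + 2 * (w * q) + Gb) * (b * B.c b))
    (g := 2 * ((m w + dm * w) * (b * B.c a)))
    (B.K.add_mem (B.K.mul_mem_right _ (B.K.add_mem (k n dn p F.vn) ka))
      (B.K.mul_mem_right _ (B.K.add_mem (k l dl q F.vl) kb)))
    (B.K.mul_mem_left _ (B.K.mul_mem_right _ km)) fun x => by
      obtain ⟨s, t, hs, ht, e1, e2, e3⟩ := e x
      rw [val_add, val_sq h, val_sq h, h.val_mul re_two, val_two, val_add _ _ Ga, val_add _ _ Gb]
      have y := (abs_le.1 (h.abs_val_bil x (m w + dm * w) b a)).1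
      have z : 2 * (B.md x (m w + dm * w) * (B.md x b * B.md x a)) ≤
          s * B.md x a ^ 2 + t * B.md x b ^ 2 := by
        refine abs_le_of_sq_le_sq' ?_ (by positivity) |>.2
        have := mul_le_mul_of_nonneg_right e3 (sq_nonneg (B.md x b * B.md x a))
        nlinarith [sq_nonneg (s * B.md x a ^ 2 - t * B.md x b ^ 2)]
      nlinarith [mul_le_mul_of_nonneg_right e1 (sq_nonneg (B.md x a)),
        mul_le_mul_of_nonneg_right e2 (sq_nonneg (B.md x b))]
  rw [J_add, J_two] at this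
  change B.nsq _ a + B.nsq _ b ≤ 2 * B.bil _ b a at this
  rw [nsq_add_w _ Ga, nsq_add_w _ Gb] at this
  linarith

/-- The cut off ph is causal up to an error E ri. -/
structure Cut (B : Ibp A) (l n m : Der A) (ri ph E : A) : Prop where
  wp : B.Wt ph
  wE : B.Wt E
  le : ∀ x, ∃ s t : ℝ, 0 ≤ s ∧ 0 ≤ t ∧ B.val x (n ph) + s ^ 2 ≤ B.val x E * B.val x ri ∧
    B.val x (l ph) + t ^ 2 ≤ B.val x E * B.val x ri ∧
    B.md x (m ph) ≤ s * t + B.val x E * B.val x ri

/-- Real and nonnegative. -/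
structure Ps (B : Ibp A) (w : A) : Prop where
  re : B.Re w
  pos : ∀ x, 0 ≤ B.val x w

theorem Ps.mul (h : B.Is) {u w : A} (hu : Ps B u) (hw : Ps B w) : Ps B (u * w) :=
  ⟨hu.re.mul hw.re, fun x => by rw [h.val_mul hu.re]; exact mul_nonneg (hu.pos x) (hw.pos x)⟩

theorem Ps.wt (h : B.Is) {u w : A} (hu : B.Wt u) (hw : Ps B w) : B.Wt (u * w) :=
  h.wt_mul hu hw.re hw.pos

/-- The pair estimate with a cut off. -/
theorem pair_cut (h : B.Is) (F : Fr B l n m mb dl dn dm dmb) {ri ph E w : A}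
    (C : Cut B l n m ri ph E) (hi : Ps B ri) (hw : Ps B w) {a b p q S S' Ga Gb : A} {k : ℝ}
    (hk : 0 ≤ k) (ha : n a = m b + p * a + S) (hb : l b = mb a + q * b + S')
    (e1 : ∀ x, B.val x (n w + dn * w + 2 * (w * p)) + B.val x Ga +
      k * (B.val x w * B.val x ri) ≤ 0)
    (e2 : ∀ x, B.val x (l w + dl * w + 2 * (w * q)) + B.val x Gb +
      k * (B.val x w * B.val x ri) ≤ 0)
    (e3 : ∀ x, B.md x (m w + dm * w) ≤ k * (B.val x w * B.val x ri)) :
    B.nsq (ph * Ga) a + B.nsq (ph * Gb) b ≤ 2 * (B.bil (ph * w) S a + B.bil (ph * w) S' b) +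
      2 * (B.nsq (E * (w * ri)) a + B.nsq (E * (w * ri)) b) := by
  have kE : 2 * (E * (w * ri)) ∈ B.K := B.K.mul_mem_left _ (B.K.mul_mem_right _ C.wE.K)
  have := pair_pt h F (B.K.mul_mem_right w C.wp.K) (C.wp.re.mul hw.re) ha hb
    (B.K.sub_mem (B.K.mul_mem_right Ga C.wp.K) kE) (B.K.sub_mem (B.K.mul_mem_right Gb C.wp.K) kE)
    fun x => by
      obtain ⟨s, t, hs, ht, c1, c2, c3⟩ := C.le x
      have p1 := C.wp.pos x
      have p2 := C.wE.pos x
      have p3 := hi.pos x
      have p4 := hw.pos x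
      have v : ∀ (D : Der A) (d u G : A), B.val x (D (ph * w) + d * (ph * w) + 2 * (ph * w * u)) +
          B.val x (ph * G - 2 * (E * (w * ri))) = B.val x w * B.val x (D ph) +
          B.val x ph * (B.val x (D w + d * w + 2 * (w * u)) + B.val x G) -
          2 * (B.val x E * (B.val x w * B.val x ri)) := fun D d u G => by
        rw [show D (ph * w) + d * (ph * w) + 2 * (ph * w * u) =
          w * D ph + ph * (D w + d * w + 2 * (w * u)) by rw [D_mul]; ring, val_add, val_sub,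
          h.val_mul hw.re, h.val_mul C.wp.re, h.val_mul C.wp.re, h.val_mul re_two, val_two,
          h.val_mul C.wE.re, h.val_mul hw.re]
        ring
      set c := B.val x E * B.val x ri + B.val x ph * (k * B.val x ri) with hc
      have c0 : 0 ≤ c := by positivity
      refine ⟨B.val x w * (s ^ 2 + c), B.val x w * (t ^ 2 + c), by positivity, by positivity,
        ?_, ?_, ?_⟩
      · rw [v]
        nlinarith [mul_le_mul_of_nonneg_left c1 p4, mul_le_mul_of_nonneg_left (e1 x) p1]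
      · rw [v]
        nlinarith [mul_le_mul_of_nonneg_left c2 p4, mul_le_mul_of_nonneg_left (e2 x) p1]
      · have y : B.md x (m (ph * w) + dm * (ph * w)) ≤ B.val x w * (s * t + c) := by
          rw [show m (ph * w) + dm * (ph * w) = w * m ph + ph * (m w + dm * w) by
            rw [D_mul]; ring]
          refine (md_add _ _ _).trans ?_
          rw [md_mul, md_mul, h.md_re hw.re, h.md_re C.wp.re, abs_of_nonneg p1, abs_of_nonneg p4]
          nlinarith [mul_le_mul_of_nonneg_left c3 p4, mul_le_mul_of_nonneg_left (e3 x) p1]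
        refine (pow_le_pow_left₀ (md_nonneg _ _) y 2).trans ?_
        nlinarith [mul_nonneg (sq_nonneg (B.val x w)) (mul_nonneg c0 (sq_nonneg (s - t)))]
  rw [nsq_sub_w, nsq_sub_w] at this
  simp only [nsq, bil_two_w] at this ⊢
  linarith

/-- The table of the weights of the four pairs; p and q are the dampings. -/
structure Tab (B : Ibp A) (l n m : Der A) (dl dn dm ri gh : A) (w p q : ℕ → A) (k : ℝ) : Prop where
  ri0 : Ps B ri
  gh0 : Ps B gh
  w0 : ∀ i < 4, Ps B (w i)
  mono : ∀ i < 4, ∀ x, B.val x (w i) ≤ B.val x (w (i - 1))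
  n0 : ∀ x, B.val x (n (w 0) + dn * w 0 + 2 * (w 0 * p 0)) ≤
    -(k * (B.val x (w 0) * B.val x ri)) - k * (B.val x (w 0) * B.val x gh)
  ni : ∀ i < 4, i ≠ 0 → ∀ x, B.val x (n (w i) + dn * w i + 2 * (w i * p i)) ≤
    k / 4 * (B.val x (w (i - 1)) * B.val x ri) - k * (B.val x (w i) * B.val x gh)
  li : ∀ i < 4, ∀ x, B.val x (l (w i) + dl * w i + 2 * (w i * q i)) ≤
    -(k * (B.val x (w i) * B.val x ri))
  mi : ∀ i < 4, ∀ x, B.md x (m (w i) + dm * w i) ≤ k / 4 * (B.val x (w i) * B.val x ri)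

/-- The estimate of a system of four pairs. -/
theorem chain (h : B.Is) (F : Fr B l n m mb dl dn dm dmb) {ri gh ph E : A} {w p q : ℕ → A}
    {k : ℝ} (hk : 0 ≤ k) (C : Cut B l n m ri ph E) (T : Tab B l n m dl dn dm ri gh w p q k)
    {U S S' : ℕ → A} (ha : ∀ i < 4, n (U i) = m (U (i + 1)) + p i * U i + S i)
    (hb : ∀ i < 4, l (U (i + 1)) = mb (U i) + q i * U (i + 1) + S' i) :
    k / 4 * (∑ i ∈ range 5, B.nsq (ph * (w (i - 1) * ri)) (U i) +
      ∑ i ∈ range 4, B.nsq (ph * (w i * gh)) (U i)) ≤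
    2 * ∑ i ∈ range 4, (B.bil (ph * w i) (S i) (U i) + B.bil (ph * w i) (S' i) (U (i + 1))) +
    2 * ∑ i ∈ range 4, (B.nsq (E * (w i * ri)) (U i) + B.nsq (E * (w i * ri)) (U (i + 1))) := by
  have key : ∀ i < 4, ∀ c : ℝ, (∀ x, B.val x (n (w i) + dn * w i + 2 * (w i * p i)) +
      (c * (B.val x (w (i - 1)) * B.val x ri) + k * (B.val x (w i) * B.val x gh)) +
      k / 4 * (B.val x (w i) * B.val x ri) ≤ 0) →
      c * B.nsq (ph * (w (i - 1) * ri)) (U i) + k * B.nsq (ph * (w i * gh)) (U i) +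
      3 * k / 4 * B.nsq (ph * (w i * ri)) (U (i + 1)) ≤
      2 * (B.bil (ph * w i) (S i) (U i) + B.bil (ph * w i) (S' i) (U (i + 1))) +
      2 * (B.nsq (E * (w i * ri)) (U i) + B.nsq (E * (w i * ri)) (U (i + 1))) := fun i hi c e => by
    have r1 := (T.w0 i hi).re
    have r2 := (T.w0 (i - 1) (by omega)).re
    have := pair_cut h F C T.ri0 (T.w0 i hi) (k := k / 4) (by positivity) (ha i hi) (hb i hi)
      (Ga := rl A c * (w (i - 1) * ri) + rl A k * (w i * gh))
      (Gb := rl A (3 * k / 4) * (w i * ri))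
      (fun x => by
        rw [val_add _ (rl A c * _), h.val_mul (h.re_rl _), h.val_mul (h.re_rl _), h.val_rl,
          h.val_rl, h.val_mul r1, h.val_mul r2]
        exact e x)
      (fun x => by
        rw [h.val_mul (h.re_rl _), h.val_rl, h.val_mul r1]
        linarith [T.li i hi x])
      (T.mi i hi)
    rwa [mul_add, mul_left_comm ph (rl A c), mul_left_comm ph (rl A k),
      mul_left_comm ph (rl A _), nsq_add_w, nsq_rl_w, nsq_rl_w, nsq_rl_w] at this
  have k0 := key 0 (by norm_num) (3 * k / 4) fun x => by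
    have := T.n0 x
    simp only [Nat.zero_sub]
    linarith
  have ki : ∀ i < 4, i ≠ 0 → _ := fun i hi h0 => key i hi (-(k / 2)) fun x => by
    have := T.ni i hi h0 x
    have := mul_le_mul_of_nonneg_left (mul_le_mul_of_nonneg_right (T.mono i hi x) (T.ri0.pos x)) hk
    linarith
  have k1 := ki 1 (by norm_num) (by norm_num)
  have k2 := ki 2 (by norm_num) (by norm_num)
  have k3 := ki 3 (by norm_num) (by norm_num)
  have z : ∀ i < 4, ∀ u, Ps B u → ∀ f, 0 ≤ k * B.nsq (ph * (w i * u)) f := fun i hi u hu f =>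
    mul_nonneg hk (h.nsq_nonneg (Ps.wt h C.wp ((T.w0 i hi).mul h hu)) f)
  simp only [sum_range_succ, sum_range_zero, Nat.reduceSub, Nat.reduceAdd, Nat.zero_sub,
    zero_add] at k0 k1 k2 k3 ⊢
  linarith [z 0 (by norm_num) _ T.ri0 (U 0), z 0 (by norm_num) _ T.ri0 (U 1),
    z 3 (by norm_num) _ T.ri0 (U 4), z 0 (by norm_num) _ T.gh0 (U 0),
    z 1 (by norm_num) _ T.gh0 (U 1), z 2 (by norm_num) _ T.gh0 (U 2),
    z 3 (by norm_num) _ T.gh0 (U 3)]

/-- An antisymmetric coupling of spectator indices does not contribute. -/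
theorem anti (h : B.Is) {W : Type} [Fintype W] {w : A} (hw : w ∈ B.K) (hr : B.Re w)
    (a : W → W → A) (U V : W → A) :
    ∑ j, (B.bil w (∑ j', a j j' * V j') (U j) +
      B.bil w (-∑ j', B.c (a j' j) * U j') (V j)) = 0 := by
  simp only [sum_add_distrib, bil_neg_l, bil_sum_l, sum_neg_distrib]
  rw [sum_comm (f := fun j j' => B.bil w (B.c (a j' j) * U j') (V j)), add_neg_eq_zero]
  refine sum_congr rfl fun j _ => sum_congr rfl fun j' _ => ?_
  rw [h.bil_comm hw hr, bil_mul_r, bil_mul_l]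

/-- The estimate of a system of four pairs with spectator indices. -/
theorem chain_sum (h : B.Is) (F : Fr B l n m mb dl dn dm dmb) {ri gh ph E : A} {w p q : ℕ → A}
    {k : ℝ} (hk : 0 ≤ k) (C : Cut B l n m ri ph E) (T : Tab B l n m dl dn dm ri gh w p q k)
    {W : Type} [Fintype W] (a : W → W → A) {U S S' : W → ℕ → A}
    (ha : ∀ j, ∀ i < 4, n (U j i) = m (U j (i + 1)) + p i * U j i +
      (∑ j', a j j' * U j' (i + 1) + S j i))
    (hb : ∀ j, ∀ i < 4, l (U j (i + 1)) = mb (U j i) + q i * U j (i + 1) +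
      (-∑ j', B.c (a j' j) * U j' i + S' j i)) :
    k / 4 * ∑ j, (∑ i ∈ range 5, B.nsq (ph * (w (i - 1) * ri)) (U j i) +
      ∑ i ∈ range 4, B.nsq (ph * (w i * gh)) (U j i)) ≤
    2 * ∑ j, ∑ i ∈ range 4,
      (B.bil (ph * w i) (S j i) (U j i) + B.bil (ph * w i) (S' j i) (U j (i + 1))) +
    2 * ∑ j, ∑ i ∈ range 4,
      (B.nsq (E * (w i * ri)) (U j i) + B.nsq (E * (w i * ri)) (U j (i + 1))) := by
  have s := sum_le_sum fun j (_ : j ∈ univ) => chain h F hk C T (ha j) (hb j)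
  have z : ∑ j, ∑ i ∈ range 4, (B.bil (ph * w i) (∑ j', a j j' * U j' (i + 1)) (U j i) +
      B.bil (ph * w i) (-∑ j', B.c (a j' j) * U j' i) (U j (i + 1))) = 0 := by
    rw [sum_comm]
    exact sum_eq_zero fun i hi => anti h (B.K.mul_mem_right _ C.wp.K)
      (C.wp.re.mul (T.w0 i (mem_range.1 hi)).re) a _ _
  simp only [bil_add_l, sum_add_distrib, ← mul_sum] at s z ⊢
  linarith

end Vale.Agent.P354YP
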