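import Vale.Agent.P354YP.Chain

/-!
The chain of the four pairs with general bulk and density weights.
-/

namespace Vale.Agent.P354YP

open Vale.Agent.P354XG (Der D_mul D_add D_sub D_neg D_alg)
open Vale.Agent.P354XI Vale.Agent.P354XI.Ibp Finset

variable {A : Type} [CommRing A] [Algebra ℂ A]
variable {B : Ibp A} {l n m mb : Der A} {dl dn dm dmb : A}

theorem cs3 {W c f s t a b : ℝ} (hW : 0 ≤ W) (hc : 0 ≤ c) (hf : 0 ≤ f) :
    (W * (s * t) + c + f * (a * b)) ^ 2 ≤
      (W * s ^ 2 + c + f * a ^ 2) * (W * t ^ 2 + c + f * b ^ 2) := by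
  nlinarith [mul_nonneg (mul_nonneg hW hc) (sq_nonneg (s - t)),
    mul_nonneg (mul_nonneg hW hf) (sq_nonneg (s * b - t * a)),
    mul_nonneg (mul_nonneg hc hf) (sq_nonneg (a - b))]

/-- The pair estimate with a cut off. -/
theorem pair_cut2 (h : B.Is) (F : Fr B l n m mb dl dn dm dmb) {ri ph E w : A}
    (C : Cut B l n m ri ph E) (hi : Ps B ri) (hw : Ps B w) {a b p q S S' Ga Gb : A}
    (ha : n a = m b + p * a + S) (hb : l b = mb a + q * b + S')
    (e : ∀ x, ∃ s t : ℝ, 0 ≤ s ∧ 0 ≤ t ∧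
      B.val x (n w + dn * w + 2 * (w * p)) + B.val x Ga + s ≤ 0 ∧
      B.val x (l w + dl * w + 2 * (w * q)) + B.val x Gb + t ≤ 0 ∧
      B.md x (m w + dm * w) ^ 2 ≤ s * t) :
    B.nsq (ph * Ga) a + B.nsq (ph * Gb) b ≤ 2 * (B.bil (ph * w) S a + B.bil (ph * w) S' b) +
      2 * (B.nsq (E * (w * ri)) a + B.nsq (E * (w * ri)) b) := by
  have kE : 2 * (E * (w * ri)) ∈ B.K := B.K.mul_mem_left _ (B.K.mul_mem_right _ C.wE.K)
  have := pair_pt h F (B.K.mul_mem_right w C.wp.K) (C.wp.re.mul hw.re) ha hb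
    (B.K.sub_mem (B.K.mul_mem_right Ga C.wp.K) kE) (B.K.sub_mem (B.K.mul_mem_right Gb C.wp.K) kE)
    fun x => by
      obtain ⟨s, t, hs, ht, c1, c2, c3⟩ := C.le x
      obtain ⟨s', t', hs', ht', e1, e2, e3⟩ := e x
      have p1 := C.wp.pos x
      have p2 := C.wE.pos x
      have p3 := hi.pos x
      have p4 := hw.pos x
      have v : ∀ (D : Der A) (d u G : A), B.val x (D (ph * w) + d * (ph * w) + 2 * (ph * w * u)) +
          B.val x (ph * G - 2 * (E * (w * ri))) = B.val x w * B.val x (D ph) +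
          B.val x ph * (B.val x (D w + d * w + 2 * (w * u)) + B.val x G) -
          2 * (B.val x E * (B.val x w * B.val x ri)) := fun D d u G => by
        rw [show D (ph * w) + d * (ph * w) + 2 * (ph * w * u) =
          w * D ph + ph * (D w + d * w + 2 * (w * u)) by rw [D_mul]; ring, val_add, val_sub,
          h.val_mul hw.re, h.val_mul C.wp.re, h.val_mul C.wp.re, h.val_mul re_two, val_two,
          h.val_mul C.wE.re, h.val_mul hw.re]
        ring
      set c := B.val x w * (B.val x E * B.val x ri) with hc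
      have c0 : 0 ≤ c := by positivity
      refine ⟨B.val x w * s ^ 2 + c + B.val x ph * s', B.val x w * t ^ 2 + c + B.val x ph * t',
        by positivity, by positivity, ?_, ?_, ?_⟩
      · rw [v]
        nlinarith [mul_le_mul_of_nonneg_left c1 p4, mul_le_mul_of_nonneg_left e1 p1]
      · rw [v]
        nlinarith [mul_le_mul_of_nonneg_left c2 p4, mul_le_mul_of_nonneg_left e2 p1]
      · have z : B.md x (m w + dm * w) ≤ √s' * √t' := by
          rw [← Real.sqrt_mul hs']; exact Real.le_sqrt_of_sq_le e3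
        have y : B.md x (m (ph * w) + dm * (ph * w)) ≤
            B.val x w * (s * t) + c + B.val x ph * (√s' * √t') := by
          rw [show m (ph * w) + dm * (ph * w) = w * m ph + ph * (m w + dm * w) by
            rw [D_mul]; ring]
          refine (md_add _ _ _).trans ?_
          rw [md_mul, md_mul, h.md_re hw.re, h.md_re C.wp.re, abs_of_nonneg p1, abs_of_nonneg p4]
          nlinarith [mul_le_mul_of_nonneg_left c3 p4, mul_le_mul_of_nonneg_left z p1]
        refine (pow_le_pow_left₀ (md_nonneg _ _) y 2).trans ((cs3 p4 c0 p1).trans_eq ?_)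
        rw [Real.sq_sqrt hs', Real.sq_sqrt ht']
  rw [nsq_sub_w, nsq_sub_w] at this
  simp only [nsq, bil_two_w] at this ⊢
  linarith

/-- The table: w are the weights, bk the bulk and de the density weights. -/
structure Tab2 (B : Ibp A) (l n m : Der A) (dl dn dm : A) (w bk de p q : ℕ → A) (k : ℝ) :
    Prop where
  w0 : ∀ i < 4, Ps B (w i)
  b0 : ∀ i < 4, Ps B (bk i)
  d0 : ∀ i < 4, Ps B (de i)
  n0 : ∀ x, B.val x (n (w 0) + dn * w 0 + 2 * (w 0 * p 0)) ≤
    -(k * B.val x (bk 0)) - k * B.val x (de 0)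
  ni : ∀ i < 4, i ≠ 0 → ∀ x, B.val x (n (w i) + dn * w i + 2 * (w i * p i)) ≤
    k / 4 * B.val x (bk (i - 1)) - k * B.val x (de i)
  li : ∀ i < 4, ∀ x, B.val x (l (w i) + dl * w i + 2 * (w i * q i)) ≤ -(k * B.val x (bk i))
  mi : ∀ i < 4, ∀ x, B.md x (m (w i) + dm * w i) ^ 2 ≤
    k / 4 * B.val x (bk (i - 1)) * (k / 4 * B.val x (bk i))

theorem chain2 (h : B.Is) (F : Fr B l n m mb dl dn dm dmb) {ri ph E : A} {w bk de p q : ℕ → A}
    {k : ℝ} (hk : 0 ≤ k) (C : Cut B l n m ri ph E) (hi : Ps B ri)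
    (T : Tab2 B l n m dl dn dm w bk de p q k)
    {U S S' : ℕ → A} (ha : ∀ i < 4, n (U i) = m (U (i + 1)) + p i * U i + S i)
    (hb : ∀ i < 4, l (U (i + 1)) = mb (U i) + q i * U (i + 1) + S' i) :
    k / 4 * (∑ i ∈ range 5, B.nsq (ph * bk (i - 1)) (U i) +
      ∑ i ∈ range 4, B.nsq (ph * de i) (U i)) ≤
    2 * ∑ i ∈ range 4, (B.bil (ph * w i) (S i) (U i) + B.bil (ph * w i) (S' i) (U (i + 1))) +
    2 * ∑ i ∈ range 4, (B.nsq (E * (w i * ri)) (U i) + B.nsq (E * (w i * ri)) (U (i + 1))) := by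
  have key : ∀ i < 4, ∀ c : ℝ, (∀ x, B.val x (n (w i) + dn * w i + 2 * (w i * p i)) +
      (c * B.val x (bk (i - 1)) + k * B.val x (de i)) + k / 4 * B.val x (bk (i - 1)) ≤ 0) →
      c * B.nsq (ph * bk (i - 1)) (U i) + k * B.nsq (ph * de i) (U i) +
      3 * k / 4 * B.nsq (ph * bk i) (U (i + 1)) ≤
      2 * (B.bil (ph * w i) (S i) (U i) + B.bil (ph * w i) (S' i) (U (i + 1))) +
      2 * (B.nsq (E * (w i * ri)) (U i) + B.nsq (E * (w i * ri)) (U (i + 1))) := fun i hi' c e => by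
    have r1 := (T.b0 i hi').pos
    have r2 := (T.b0 (i - 1) (by omega)).pos
    have := pair_cut2 h F C hi (T.w0 i hi') (ha i hi') (hb i hi')
      (Ga := rl A c * bk (i - 1) + rl A k * de i) (Gb := rl A (3 * k / 4) * bk i) fun x =>
      ⟨_, _, mul_nonneg (by positivity) (r2 x), mul_nonneg (by positivity) (r1 x), by
        rw [val_add _ (rl A c * _), h.val_mul (h.re_rl _), h.val_mul (h.re_rl _), h.val_rl,
          h.val_rl]
        exact e x, by
        rw [h.val_mul (h.re_rl _), h.val_rl]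
        linarith [T.li i hi' x], T.mi i hi' x⟩
    rwa [mul_add, mul_left_comm ph (rl A c), mul_left_comm ph (rl A k),
      mul_left_comm ph (rl A _), nsq_add_w, nsq_rl_w, nsq_rl_w, nsq_rl_w] at this
  have k0 := key 0 (by norm_num) (3 * k / 4) fun x => by
    have := T.n0 x
    simp only [Nat.zero_sub]
    linarith
  have ki : ∀ i < 4, i ≠ 0 → _ := fun i hi h0 => key i hi (-(k / 2)) fun x => by
    linarith [T.ni i hi h0 x]
  have k1 := ki 1 (by norm_num) (by norm_num)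
  have k2 := ki 2 (by norm_num) (by norm_num)
  have k3 := ki 3 (by norm_num) (by norm_num)
  have z : ∀ u, Ps B u → ∀ f, 0 ≤ k * B.nsq (ph * u) f := fun u hu f =>
    mul_nonneg hk (h.nsq_nonneg (Ps.wt h C.wp hu) f)
  simp only [sum_range_succ, sum_range_zero, Nat.reduceSub, Nat.reduceAdd, Nat.zero_sub,
    zero_add] at k0 k1 k2 k3 ⊢
  linarith [z _ (T.b0 0 (by norm_num)) (U 0), z _ (T.b0 0 (by norm_num)) (U 1),
    z _ (T.b0 3 (by norm_num)) (U 4), z _ (T.d0 0 (by norm_num)) (U 0),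
    z _ (T.d0 1 (by norm_num)) (U 1), z _ (T.d0 2 (by norm_num)) (U 2),
    z _ (T.d0 3 (by norm_num)) (U 3)]

theorem chain2_sum (h : B.Is) (F : Fr B l n m mb dl dn dm dmb) {ri ph E : A}
    {w bk de p q : ℕ → A} {k : ℝ} (hk : 0 ≤ k) (C : Cut B l n m ri ph E) (hi : Ps B ri)
    (T : Tab2 B l n m dl dn dm w bk de p q k)
    {W : Type} [Fintype W] (a : W → W → A) {U S S' : W → ℕ → A}
    (ha : ∀ j, ∀ i < 4, n (U j i) = m (U j (i + 1)) + p i * U j i +
      (∑ j', a j j' * U j' (i + 1) + S j i))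
    (hb : ∀ j, ∀ i < 4, l (U j (i + 1)) = mb (U j i) + q i * U j (i + 1) +
      (-∑ j', B.c (a j' j) * U j' i + S' j i)) :
    k / 4 * ∑ j, (∑ i ∈ range 5, B.nsq (ph * bk (i - 1)) (U j i) +
      ∑ i ∈ range 4, B.nsq (ph * de i) (U j i)) ≤
    2 * ∑ j, ∑ i ∈ range 4,
      (B.bil (ph * w i) (S j i) (U j i) + B.bil (ph * w i) (S' j i) (U j (i + 1))) +
    2 * ∑ j, ∑ i ∈ range 4,
      (B.nsq (E * (w i * ri)) (U j i) + B.nsq (E * (w i * ri)) (U j (i + 1))) := by
  have s := sum_le_sum fun j (_ : j ∈ univ) => chain2 h F hk C hi T (ha j) (hb j)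
  have z : ∑ j, ∑ i ∈ range 4, (B.bil (ph * w i) (∑ j', a j j' * U j' (i + 1)) (U j i) +
      B.bil (ph * w i) (-∑ j', B.c (a j' j) * U j' i) (U j (i + 1))) = 0 := by
    rw [sum_comm]
    exact sum_eq_zero fun i hi => anti h (B.K.mul_mem_right _ C.wp.K)
      (C.wp.re.mul (T.w0 i (mem_range.1 hi)).re) a _ _
  simp only [bil_add_l, sum_add_distrib, ← mul_sum] at s z ⊢
  linarith

end Vale.Agent.P354YP
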