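import Vale.Agent.P354YP.Tab3
import Vale.Agent.P354XZ.Props2

/-!
The cut off of the far zone, and the weights of the statement.
-/

namespace Vale.Agent.P354YP

open Vale.Agent.P354XG (Der D_mul D_add D_sub D_neg D_alg D_one D_num)
open Vale.Agent.P354XI Vale.Agent.P354XI.Ibp Vale.Agent.P354XZ Finset

variable {A : Type} [CommRing A] [Algebra ℂ A] {C : Ch A} {F F0 : NF A} {t : Fin 4 → A}
  {K : P354XZ.Cut C}

/-- The layer lies in r ≤ L ut. -/
def Near (K : P354XZ.Cut C) : Prop :=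
  ∃ L, ∀ j, ∀ q ∈ C.Dom j, K.lay j q.1 q.2 ≠ 0 → q.2 ≤ L * C.ut j q.1

theorem md_mul' (x : C.Pt) (f g : A) : C.md x (f * g) = C.md x f * C.md x g := md_mul _ f g

theorem val_mul' (h : C.Is) (x : C.Pt) {f : A} (r : C.c f = f) (g : A) :
    C.val x (f * g) = C.val x f * C.val x g := (h.ibp _).val_mul (by rw [Re, h.c_eq, r]) _ g

theorem md_re' (h : C.Is) (x : C.Pt) {f : A} (r : C.c f = f) : C.md x f = |C.val x f| :=
  (h.ibp _).md_re (by rw [Re, h.c_eq, r]) _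

/-- The derivatives of the inner cut off. -/
theorem d_chi (h : C.Is) (k : K.Is) (hn : Near K) : ∃ L, 0 ≤ L ∧ ∀ (x : C.Pt) (d : ℝ),
    Gb C F x d → d ≤ 1 → C.md x (F.n C (C.fn K.chi)) ≤ L * C.at' K.lay x * (C.rr x)⁻¹ ∧
      C.md x (C.R (C.fn K.chi)) ≤ L * C.at' K.lay x * (C.rr x)⁻¹ ∧
      C.md x (F.m C (C.fn K.chi)) ≤ L * C.at' K.lay x * (C.rr x)⁻¹ := by
  obtain ⟨L1, h1⟩ := k.dchi
  obtain ⟨L2, h2⟩ := hn
  refine ⟨|L1| * (3 + |L2|), by positivity, fun x d G d1 => ?_⟩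
  have r := rr_pos h x
  have s := k.sm.1
  have u1 := (SmF.du s (j := x.1) (u := C.uu x) r).differentiableAt.hasDerivAt
  have u2 := (SmF.dr s (j := x.1) (u := C.uu x) r).differentiableAt.hasDerivAt
  have e := (h1 _ _ (h.dom x)).2
  have l0 : 0 ≤ C.at' K.lay x := (k.rng _ _ (h.dom x)).2.1
  have d0 : 0 ≤ d := (md_nonneg _ _).trans G.nu
  set a := |deriv (fun u => K.chi x.1 u (C.rr x)) (C.uu x)|
  set b := |deriv (K.chi x.1 (C.uu x)) (C.rr x)|
  have a0 : 0 ≤ a := abs_nonneg _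
  have b0 : 0 ≤ b := abs_nonneg _
  have e1 : a + b ≤ |L1| * C.at' K.lay x * (C.rr x)⁻¹ := by
    rw [le_mul_inv_iff₀ r, mul_comm]
    exact e.trans (mul_le_mul_of_nonneg_right (le_abs_self _) l0)
  have z0 : 0 ≤ C.rr x * ga C x := (mul_pos r (ga_pos h x)).le
  have e2 : (a + b) * (C.rr x * ga C x) ≤ (a + b) * |L2| := by
    by_cases c : C.at' K.lay x = 0
    · rw [c, mul_zero, zero_mul] at e1
      rw [le_antisymm e1 (by positivity), zero_mul, zero_mul]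
    · refine mul_le_mul_of_nonneg_left ?_ (by positivity)
      have t := one_le_tt h x
      have g : ga C x ≤ (tt C x)⁻¹ := by
        rw [← Real.rpow_neg_one]; exact Real.rpow_le_rpow_of_exponent_le t (by norm_num)
      have := (h2 _ _ (h.dom x) c).trans (mul_le_mul_of_nonneg_right (le_abs_self _) ut_nonneg)
      refine (mul_le_mul this g (ga_pos h x).le (by positivity)).trans (le_of_eq ?_)
      exact mul_inv_cancel_right₀ (by linarith : tt C x ≠ 0) _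
  have e3 := mul_le_mul_of_nonneg_right e1 (show 0 ≤ 3 + |L2| by positivity)
  have e4 := mul_nonneg (add_nonneg a0 b0) (abs_nonneg L2)
  have n0 : C.md x (F.nc 0) ≤ 3 := by
    have := md_add' x (F.nc 0 - 2) 2
    rw [sub_add_cancel, md_re' h x (f := 2) (map_ofNat _ 2), Ch.val, val_two, abs_two] at this
    linarith [G.nu]
  have n1 : C.md x (F.nc 1) ≤ 2 + C.rr x * ga C x := by
    have := md_add' x (F.nc 1 + 1) (-1)
    rw [add_neg_cancel_right, md_re' h x (f := -1) (by simp), Ch.val, val_neg, val_one, abs_neg,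
      abs_one] at this
    linarith [G.nr, mul_le_mul_of_nonneg_right d1 (show 0 ≤ 1 + C.rr x * ga C x by positivity)]
  refine ⟨(md_vf_fn h s _ x u1 u2).trans ?_, ?_, (md_vf_fn h s _ x u1 u2).trans ?_⟩
  · linarith [mul_le_mul_of_nonneg_left n0 a0, mul_le_mul_of_nonneg_left n1 b0, mul_nonneg a0 z0]
  · rw [h.fn_R _ s, md_re' h x (h.fn_c _ (smF_dr s)), val_fn h (smF_dr s)]
    change b ≤ _
    linarith
  · linarith [mul_le_mul_of_nonneg_left (G.mu'.trans d1) a0,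
      mul_le_mul_of_nonneg_left (G.mr.trans d1) b0]

theorem cut_pt (h : C.Is) (k : K.Is) {L : ℝ} {ps : A} (x : C.Pt) (c : K.Cau F x.1 ps)
    (e : C.md x (F.n C (C.fn K.chi)) ≤ L * C.at' K.lay x * (C.rr x)⁻¹ ∧
      C.md x (C.R (C.fn K.chi)) ≤ L * C.at' K.lay x * (C.rr x)⁻¹ ∧
      C.md x (F.m C (C.fn K.chi)) ≤ L * C.at' K.lay x * (C.rr x)⁻¹) :
    ∃ s t : ℝ, 0 ≤ s ∧ 0 ≤ t ∧ C.val x (F.n C (ps * C.fn K.chi)) + s ^ 2 ≤
      C.val x (rl A L * (ps * C.fn K.lay)) * C.val x C.ri ∧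
      C.val x (C.R (ps * C.fn K.chi)) + t ^ 2 ≤
        C.val x (rl A L * (ps * C.fn K.lay)) * C.val x C.ri ∧
      C.md x (F.m C (ps * C.fn K.chi)) ≤
        s * t + C.val x (rl A L * (ps * C.fn K.lay)) * C.val x C.ri := by
  obtain ⟨p0, p1, p2, p3⟩ := c.pos x rfl
  have c0 : 0 ≤ C.at' K.chi x := (k.rng _ _ (h.dom x)).1.1
  have rc := h.fn_c _ k.sm.1
  have E : C.val x (rl A L * (ps * C.fn K.lay)) * C.val x C.ri =
      C.val x ps * (L * C.at' K.lay x * (C.rr x)⁻¹) := by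
    rw [Ch.val, (h.ibp _).val_mul ((h.ibp _).re_rl L), (h.ibp _).val_rl, ← Ch.val, val_mul' h x c.re,
      val_fn h k.sm.2.1, val_ri h]
    ring
  have v : ∀ D : Der A, C.val x (D (ps * C.fn K.chi)) ≤
      C.val x ps * C.md x (D (C.fn K.chi)) + C.at' K.chi x * C.val x (D ps) := fun D => by
    rw [D_mul, Ch.val, val_add, ← Ch.val, ← Ch.val, val_mul' h x c.re, val_mul' h x rc,
      val_fn h k.sm.1]
    exact add_le_add_left (mul_le_mul_of_nonneg_left ((le_abs_self _).trans (abs_val_le _ _)) p0) _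
  have s0 : 0 ≤ C.at' K.chi x * -C.val x (F.n C ps) := mul_nonneg c0 (neg_nonneg.2 p2)
  have t0 : 0 ≤ C.at' K.chi x * -C.val x (C.R ps) := mul_nonneg c0 (neg_nonneg.2 p1)
  refine ⟨√(C.at' K.chi x * -C.val x (F.n C ps)), √(C.at' K.chi x * -C.val x (C.R ps)),
    Real.sqrt_nonneg _, Real.sqrt_nonneg _, ?_, ?_, ?_⟩
  · rw [Real.sq_sqrt s0, E]
    linarith [v (F.n C), mul_le_mul_of_nonneg_left e.1 p0]
  · rw [Real.sq_sqrt t0, E]
    linarith [v C.R, mul_le_mul_of_nonneg_left e.2.1 p0]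
  · rw [E, D_mul, ← Real.sqrt_mul s0]
    refine (md_add' _ _ _).trans ?_
    rw [md_mul', md_mul', md_re' h x c.re, md_re' h x rc, val_fn h k.sm.1, abs_of_nonneg p0,
      abs_of_nonneg c0, add_comm]
    refine add_le_add (Real.le_sqrt_of_sq_le ?_) (mul_le_mul_of_nonneg_left e.2.2 p0)
    nlinarith [mul_le_mul_of_nonneg_left p3 (sq_nonneg (C.at' K.chi x)),
      sq_nonneg (C.at' K.chi x * C.md x (F.m C ps))]

theorem wt_chi (h : C.Is) (k : K.Is) {j : C.J} {ps : A} (c : K.Cau F j ps) :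
    (C.B j).Wt (ps * C.fn K.chi) ∧ (C.B j).Wt (ps * C.fn K.lay) := by
  have r : (C.B j).Re ps := by rw [Re, h.c_eq, c.re]
  have z : ∀ φ, SmF φ → (∀ x, 0 ≤ C.at' φ x) → ∀ y, 0 ≤ (C.B j).val y (ps * C.fn φ) :=
    fun φ s p y => by
      rw [(h.ibp j).val_mul r]
      exact mul_nonneg (c.pos ⟨j, y⟩ rfl).1 ((p ⟨j, y⟩).trans_eq (val_fn h s ⟨j, y⟩).symm)
  exact ⟨⟨c.cpt.1, r.mul (re_fn h k.sm.1 j), z _ k.sm.1 fun x => (k.rng _ _ (h.dom x)).1.1⟩,
    ⟨c.cpt.2.1, r.mul (re_fn h k.sm.2.1 j), z _ k.sm.2.1 fun x => (k.rng _ _ (h.dom x)).2.1⟩⟩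

/-! ### The weights of the statement -/

theorem at_z (h : C.Is) (l : ℝ) (i : Fin 4) (x : C.Pt) :
    C.at' (C.mon 2 0 0 * C.w K.p l i) x = C.at' (zf C K.p l i) x := by
  fin_cases i <;>
  simp only [Ch.w, zf, qf, ea, eb, ee, at_mul, Fin.zero_eta, Fin.mk_one, Fin.reduceFinMk,
    Matrix.cons_val, Nat.reduceEqDiff, reduceIte, mul_left_comm (C.at' (C.mon 2 0 0) x), at_mon h,
    one_mul] <;> norm_num

theorem at_D (h : C.Is) (l : ℝ) (i : Fin 5) (x : C.Pt) :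
    C.at' (C.Db K.p l i) x = C.at' (zf C K.p l (i - 1)) x * C.at' (C.mon (ek (i - 1)) 0 0) x ∧
    C.at' (C.Dd K.p l i) x = if (i : ℕ) < 4 then C.at' (zf C K.p l i) x * ga C x else 0 := by
  rw [← at_ga]
  fin_cases i <;>
  simp only [Ch.Db, Ch.Dd, Ch.w, zf, qf, ea, eb, ee, ek, at_mul, Fin.zero_eta, Fin.mk_one,
    Fin.reduceFinMk, Matrix.cons_val, Nat.reduceEqDiff, reduceIte, Nat.reduceSub, Nat.zero_sub,
    Nat.reduceLT, mul_left_comm (C.at' (C.mon _ 0 _) x) (C.at' K.p x), mul_assoc, at_mon h,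
    show C.at' 0 x = 0 from rfl, one_mul] <;> norm_num

theorem smF_w (h : C.Is) (k : K.Is) (l : ℝ) (i : Fin 4) : SmF (C.w K.p l i) := by
  fin_cases i
  exacts [smF_mul k.sm.2.2 (smF_mon h _ _ _), smF_mon h _ _ _, smF_mon h _ _ _, smF_mon h _ _ _]

theorem smF_Db (h : C.Is) (k : K.Is) (l : ℝ) (i : Fin 5) : SmF (C.Db K.p l i) := by
  fin_cases i <;> exact smF_mul (smF_mon h _ _ _) (smF_w h k l _)

theorem smF_Dw (h : C.Is) (k : K.Is) (l : ℝ) (i : Fin 5) : SmF (C.Dw K.p l i) := by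
  refine smF_add (smF_Db h k l i) ?_
  fin_cases i <;> first | exact smF_zero | exact smF_mul (smF_mon h _ _ _) (smF_w h k l _)

theorem Dw_pos (h : C.Is) (k : K.Is) (l : ℝ) (i : Fin 5) (j : C.J) (u : ℝ) {r : ℝ} (hr : 0 < r) :
    0 < C.Dw K.p l i j u r := by
  have m := fun a b e => mon_pos' h a b e j u hr
  have w : ∀ i, 0 < C.w K.p l i j u r := fun i => by
    fin_cases i
    exacts [mul_pos (k.pos _ _ _ hr) (m _ _ _), m _ _ _, m _ _ _, m _ _ _]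
  refine add_pos_of_pos_of_nonneg ?_ ?_
  · fin_cases i <;> exact mul_pos (m _ _ _) (w _)
  · fin_cases i <;> first | exact le_rfl | exact (mul_pos (m _ _ _) (w _)).le

theorem smF_O (h : C.Is) (k : K.Is) (l : ℝ) (i : Fin 4) (i' : Fin 5) :
    SmF ((C.mon 2 0 0 * C.w K.p l i) ^ 2 / C.Dw K.p l i') :=
  smF_div (smF_sq (smF_mul (smF_mon h _ _ _) (smF_w h k l i))) (smF_Dw h k l i')
    fun j u _ hr => (Dw_pos h k l i' j u hr).ne'

theorem E_dn (j : C.J) (e : (C.B j).c = C.c) (ph : A) {ι : Type} [Fintype ι] (D : ι → Fam C.J)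
    (V : ι → A) : (C.B j).J (ph * C.dn D (C.sw 0 0) V) = ∑ i, (C.B j).nsq (ph * C.fn (D i)) (V i) := by
  simp only [Ch.dn, mul_sum, J_sum, nsq, bil, Ch.sw, if_true, e, mul_assoc]

end Vale.Agent.P354YP
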