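import Vale.Agent.P354YP.Cu

/-!
The estimate of the four pairs for coupled systems in the far zone.
-/

namespace Vale.Agent.P354YP

open Vale.Agent.P354XG (Der D_mul D_add D_sub D_neg D_alg D_one D_num)
open Vale.Agent.P354XI Vale.Agent.P354XI.Ibp Vale.Agent.P354XZ Finset

variable {A : Type} [CommRing A] [Algebra ℂ A] {C : Ch A} {F F0 : NF A} {t : Fin 4 → A}
  {K : P354XZ.Cut C}

theorem c0_pos : 0 < c0 := by unfold c0; positivity
theorem c0_le {i : ℕ} (hi : i ≤ 3) : c0 ^ 3 ≤ c0 ^ i ∧ c0 ^ i ≤ 1 :=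
  ⟨pow_le_pow_of_le_one c0_pos.le (by unfold c0; norm_num) hi,
    pow_le_one₀ c0_pos.le (by unfold c0; norm_num)⟩

/-- The extension of a finite family by zero. -/
def ex {n : ℕ} (V : Fin n → A) (i : ℕ) : A := if h : i < n then V ⟨i, h⟩ else 0

section
variable (h : C.Is) (k : K.Is) (l : ℝ)
include h k

theorem Wf_le' {i : ℕ} (hi : i ≤ 3) (x : C.Pt) :
    c0 ^ 3 * C.at' (zf C K.p l i) x ≤ C.at' (Wf C K.p l i) x ∧
      C.at' (Wf C K.p l i) x ≤ 4 * C.at' (zf C K.p l i) x := by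
  have z := (zf_pos h k l i x).le
  obtain ⟨a, b⟩ := Wf_le h k l i x
  exact ⟨(mul_le_mul_of_nonneg_right (c0_le hi).1 z).trans a,
    by linarith [mul_le_of_le_one_left z (c0_le hi).2]⟩

theorem low_pt (i : Fin 5) (x : C.Pt) : c0 ^ 3 * C.val x (C.fn (C.Dw K.p l i)) ≤
    C.val x (C.fn (Bf C K.p l (i - 1))) +
      if (i : ℕ) < 4 then C.val x (C.fn (Df C K.p l i)) else 0 := by
  obtain ⟨a, b⟩ := at_D (K := K) h l i x
  rw [val_fn h (smF_Dw h k l i), Ch.Dw, at_add, a, b, vB h k, vD h k, mul_add, ← mul_assoc]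
  refine add_le_add (mul_le_mul_of_nonneg_right (Wf_le' h k l (by omega) x).1
    (at_pos h _ _ _ x).le) ?_
  split_ifs with c
  · rw [← mul_assoc]
    exact mul_le_mul_of_nonneg_right (Wf_le' h k l (by omega) x).1 (ga_pos h x).le
  · rw [mul_zero]

theorem lay_pt (i : Fin 4) (x : C.Pt) :
    C.at' (Wf C K.p l i) x * (C.rr x)⁻¹ ≤ 64 * C.at' (C.DL K.p l i.castSucc) x ∧
    C.at' (Wf C K.p l i) x * (C.rr x)⁻¹ ≤ 64 * C.at' (C.DL K.p l i.succ) x := by
  have ri := (inv_pos.2 (rr_pos h x)).le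
  have w := mul_le_mul_of_nonneg_right (Wf_le' h k l (i := i) (by omega) x).2 ri
  have e : ∀ n : ℕ, (C.rr x)⁻¹ ≤ C.at' (C.mon (if n = 4 then 3 / 20 else 0) 0 0) x *
      C.at' (C.mon (ek (n - 1)) 0 0) x := fun n => by
    rw [at_mon h]
    simp only [Ch.at', Ch.mon, add_zero, Real.rpow_zero, mul_one, ← Real.rpow_neg_one]
    refine Real.rpow_le_rpow_of_exponent_le (one_le_rr h x) ?_
    unfold ek
    split_ifs with a b b
    · norm_num
    · norm_num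
    · omega
    · norm_num
  have e' : ∀ i' : Fin 5, C.at' (zf C K.p l (i' - 1)) x * (C.rr x)⁻¹ ≤ C.at' (C.DL K.p l i') x :=
    fun i' => by
      rw [Ch.DL, at_mul, (at_D h l i' x).1, mul_left_comm]
      exact mul_le_mul_of_nonneg_left (e _) (zf_pos h k l _ x).le
  have e1 := e' i.castSucc
  have e2 := e' i.succ
  have p := mul_nonneg (zf_pos h k l i x).le ri
  rw [Fin.val_succ, Nat.add_sub_cancel] at e2
  rw [Fin.val_castSucc] at e1
  refine ⟨?_, by linarith⟩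
  obtain ⟨i, hi⟩ := i
  rcases i with _ | i
  · simp only [Nat.zero_sub] at e1 w p ⊢
    linarith
  · have := (zf_chain h k l (i := i) (by omega) x).2.1
    simp only [Nat.add_sub_cancel] at e1 w ⊢
    linarith

theorem smF_DL (i : Fin 5) : SmF (C.DL K.p l i) := smF_mul (smF_mon h _ _ _) (smF_Db h k l i)

variable {j : C.J} {ph : A} (hp : (C.B j).Wt ph)
include hp

omit k in
theorem wt_fn {φ : Fam C.J} (s : SmF φ) (p : ∀ x, 0 ≤ C.at' φ x) : (C.B j).Wt (ph * C.fn φ) :=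
  (h.ibp j).wt_mul hp (re_fn h s j) fun y => (p ⟨j, y⟩).trans_eq (val_fn h s ⟨j, y⟩).symm

theorem low_le (i : Fin 5) (f : A) : c0 ^ 3 * (C.B j).nsq (ph * C.fn (C.Dw K.p l i)) f ≤
    (C.B j).nsq (ph * C.fn (Bf C K.p l (i - 1))) f +
      if (i : ℕ) < 4 then (C.B j).nsq (ph * C.fn (Df C K.p l i)) f else 0 := by
  have I := h.ibp j
  have := nsq_le_val I (w := rl A (c0 ^ 3) * (ph * C.fn (C.Dw K.p l i)))
    (W := ph * C.fn (Bf C K.p l (i - 1)) + ph * if (i : ℕ) < 4 then C.fn (Df C K.p l i) else 0)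
    ((C.B j).K.mul_mem_left _ ((C.B j).K.mul_mem_right _ hp.K))
    ((C.B j).K.add_mem ((C.B j).K.mul_mem_right _ hp.K) ((C.B j).K.mul_mem_right _ hp.K)) f
    fun y => by
      have e := low_pt h k l i ⟨j, y⟩
      rw [I.val_mul (I.re_rl _), I.val_rl, ← mul_add, I.val_mul hp.re, I.val_mul hp.re,
        mul_left_comm, val_add]
      refine mul_le_mul_of_nonneg_left (e.trans (le_of_eq ?_)) (hp.pos y)
      split_ifs
      · rfl
      · rw [val_zero]; rfl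
  rw [nsq_rl_w, nsq_add_w] at this
  refine this.trans (le_of_eq ?_)
  split_ifs
  · rfl
  · rw [mul_zero, nsq, nsq, bil_zero_w]

theorem src_le (i : Fin 4) (i' : Fin 5) {e : ℝ} (e0 : 0 < e) (f g : A) :
    (C.B j).bil (ph * C.fn (Wf C K.p l i)) f g ≤
      4 / e * (C.B j).nsq (ph * C.fn ((C.mon 2 0 0 * C.w K.p l i) ^ 2 / C.Dw K.p l i')) f +
        e * (C.B j).nsq (ph * C.fn (C.Dw K.p l i')) g := by
  have I := h.ibp j
  have D := fun x : C.Pt => Dw_pos h k l i' x.1 (C.uu x) (rr_pos h x)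
  have := I.young ((C.B j).K.mul_mem_right (C.fn (Wf C K.p l i)) hp.K)
    (I.wt_rl (wt_fn h hp (smF_O h k l i i') fun x => div_nonneg (sq_nonneg _) (D x).le)
      (show 0 ≤ 4 / e by positivity))
    (I.wt_rl (wt_fn h hp (smF_Dw h k l i') fun x => (D x).le) e0.le) f g fun y => by
      have a : (C.B j).val y (C.fn (Wf C K.p l i)) = _ := vW h k ⟨j, y⟩ i
      have b : (C.B j).val y (C.fn _) = _ := val_fn h (smF_O h k l i i') ⟨j, y⟩
      have c : (C.B j).val y (C.fn _) = _ := val_fn h (smF_Dw h k l i') ⟨j, y⟩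
      have z := at_z (K := K) h l i ⟨j, y⟩
      have w := pow_le_pow_left₀ (Wf_pos h k l i ⟨j, y⟩).le
        (Wf_le' h k l (i := i) (by omega) ⟨j, y⟩).2 2
      have q : C.at' ((C.mon 2 0 0 * C.w K.p l i) ^ 2 / C.Dw K.p l i') ⟨j, y⟩ *
          C.at' (C.Dw K.p l i') ⟨j, y⟩ = C.at' (zf C K.p l i) ⟨j, y⟩ ^ 2 :=
        (div_mul_cancel₀ _ (D ⟨j, y⟩).ne').trans (congrArg (· ^ 2) z)
      rw [I.md_re (hp.re.mul (re_fn h (smF_Wf h k.sm.2.2 l i) j)), sq_abs, I.val_mul (I.re_rl _),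
        I.val_mul (I.re_rl _), I.val_rl, I.val_rl, I.val_mul hp.re, I.val_mul hp.re,
        I.val_mul hp.re, a, b, c]
      calc _ ≤ (C.B j).val y ph ^ 2 * (4 * C.at' (zf C K.p l i) ⟨j, y⟩) ^ 2 := by
            rw [mul_pow]; exact mul_le_mul_of_nonneg_left w (sq_nonneg _)
        _ = _ := by rw [mul_pow, ← q]; field_simp
  rw [nsq_rl_w, nsq_rl_w] at this
  exact (le_abs_self _).trans this

theorem lay_le {L : ℝ} (L0 : 0 ≤ L) (i : Fin 4) (i' : Fin 5) (e : ∀ x, C.at' (Wf C K.p l i) x *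
    (C.rr x)⁻¹ ≤ 64 * C.at' (C.DL K.p l i') x) (f : A) :
    (C.B j).nsq (rl A L * ph * (C.fn (Wf C K.p l i) * C.ri)) f ≤
      64 * L * (C.B j).nsq (ph * C.fn (C.DL K.p l i')) f := by
  have I := h.ibp j
  rw [← nsq_rl_w]
  refine nsq_le_val I ((C.B j).K.mul_mem_right _ ((C.B j).K.mul_mem_left _ hp.K))
    ((C.B j).K.mul_mem_left _ ((C.B j).K.mul_mem_right _ hp.K)) f fun y => ?_
  have a : (C.B j).val y (C.fn (Wf C K.p l i) * C.ri) = _ :=
    (vi h ⟨j, y⟩ _).trans (congrArg _ (vW h k ⟨j, y⟩ i))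
  have b : (C.B j).val y (C.fn _) = _ := val_fn h (smF_DL h k l i') ⟨j, y⟩
  rw [mul_assoc, I.val_mul (I.re_rl _), I.val_mul (I.re_rl _), I.val_rl, I.val_rl,
    I.val_mul hp.re, I.val_mul hp.re, a, b]
  linarith [mul_le_mul_of_nonneg_left (e ⟨j, y⟩) (mul_nonneg L0 (hp.pos y))]

theorem X_nonneg (i : Fin 5) (f : A) : 0 ≤ (C.B j).nsq (ph * C.fn (C.Dw K.p l i)) f :=
  (h.ibp j).nsq_nonneg (wt_fn h hp (smF_Dw h k l i) fun x =>
    (Dw_pos h k l i x.1 (C.uu x) (rr_pos h x)).le) _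

theorem Y_nonneg (i : Fin 4) (i' : Fin 5) (f : A) :
    0 ≤ (C.B j).nsq (ph * C.fn ((C.mon 2 0 0 * C.w K.p l i) ^ 2 / C.Dw K.p l i')) f :=
  (h.ibp j).nsq_nonneg (wt_fn h hp (smF_O h k l i _) fun x => div_nonneg (sq_nonneg _)
    (Dw_pos h k l i' x.1 (C.uu x) (rr_pos h x)).le) _

theorem Z_nonneg (i : Fin 5) (f : A) : 0 ≤ (C.B j).nsq (ph * C.fn (C.DL K.p l i)) f :=
  (h.ibp j).nsq_nonneg (wt_fn h hp (smF_DL h k l i) fun x => by
    rw [Ch.DL, at_mul, (at_D h l i x).1]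
    exact (mul_pos (at_pos h _ _ _ x) (mul_pos (zf_pos h k l _ x) (at_pos h _ _ _ x))).le) _

theorem sum_low (V : Fin 5 → A) : c0 ^ 3 * ∑ i, (C.B j).nsq (ph * C.fn (C.Dw K.p l i)) (V i) ≤
    ∑ i ∈ range 5, (C.B j).nsq (ph * C.fn (Bf C K.p l (i - 1))) (ex V i) +
      ∑ i ∈ range 4, (C.B j).nsq (ph * C.fn (Df C K.p l i)) (ex V i) := by
  rw [mul_sum]
  refine (sum_le_sum fun i _ => low_le h k l hp i (V i)).trans (le_of_eq ?_)
  simp [Fin.sum_univ_five, sum_range_succ, ex]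
  ring

theorem sum_src {e : ℝ} (e0 : 0 < e) (V : Fin 5 → A) (SA SB : Fin 4 → A) : ∑ i ∈ range 4,
    ((C.B j).bil (ph * C.fn (Wf C K.p l i)) (ex SA i) (ex V i) +
      (C.B j).bil (ph * C.fn (Wf C K.p l i)) (ex SB i) (ex V (i + 1))) ≤
    4 / e * (∑ i, (C.B j).nsq (ph * C.fn (C.OA K.p l i)) (SA i) +
      ∑ i, (C.B j).nsq (ph * C.fn (C.OB K.p l i)) (SB i)) +
    2 * e * ∑ i, (C.B j).nsq (ph * C.fn (C.Dw K.p l i)) (V i) := by
  refine le_trans (le_of_eq ?_) ((sum_le_sum fun i (_ : i ∈ univ) => add_le_add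
    (src_le h k l hp i i.castSucc e0 (SA i) (V i.castSucc))
    (src_le h k l hp i i.succ e0 (SB i) (V i.succ))).trans ?_)
  · simp [Fin.sum_univ_four, sum_range_succ, ex]
  · simp only [Ch.OA, Ch.OB, Fin.sum_univ_four, Fin.sum_univ_five, Fin.reduceCastSucc,
      Fin.reduceSucc]
    linarith [mul_nonneg e0.le (X_nonneg h k l hp 0 (V 0)),
      mul_nonneg e0.le (X_nonneg h k l hp 4 (V 4))]

theorem sum_lay {L : ℝ} (L0 : 0 ≤ L) (V : Fin 5 → A) : ∑ i ∈ range 4,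
    ((C.B j).nsq (rl A L * ph * (C.fn (Wf C K.p l i) * C.ri)) (ex V i) +
      (C.B j).nsq (rl A L * ph * (C.fn (Wf C K.p l i) * C.ri)) (ex V (i + 1))) ≤
    128 * L * ∑ i, (C.B j).nsq (ph * C.fn (C.DL K.p l i)) (V i) := by
  refine le_trans (le_of_eq ?_) ((sum_le_sum fun i (_ : i ∈ univ) => add_le_add
    (lay_le h k l hp L0 i i.castSucc (fun x => (lay_pt h k l i x).1) (V i.castSucc))
    (lay_le h k l hp L0 i i.succ (fun x => (lay_pt h k l i x).2) (V i.succ))).trans ?_)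
  · simp [Fin.sum_univ_four, sum_range_succ, ex]
  · simp only [Fin.sum_univ_four, Fin.sum_univ_five, Fin.reduceCastSucc, Fin.reduceSucc]
    linarith [mul_nonneg L0 (Z_nonneg h k l hp 0 (V 0)), mul_nonneg L0 (Z_nonneg h k l hp 4 (V 4))]

end

theorem f1w (hn : Near K) : F1W C F F0 t K := fun s => by
  have h := s.ga.ch
  have k := s.cut
  obtain ⟨K0, K1, G⟩ := gb s
  obtain ⟨L, L0, hL⟩ := d_chi (F := F) h k hn
  have c3 : 0 < c0 ^ 3 := pow_pos c0_pos 3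
  set e := c0 ^ 3 / 32000 with he
  have e0 : 0 < e := by positivity
  refine ⟨1 / (100000 * (K0 + 1)), by positivity, (8 / e + 256 * L) / (4 * e),
    fun j hj l hl ps c W _ a am V SA SB S => ?_⟩
  have I := h.ibp j
  have d1 : K0 * K.de j ≤ 1 / 100000 := by
    refine (mul_le_mul_of_nonneg_left hj K1).trans ?_
    rw [mul_one_div, div_le_div_iff₀ (by positivity) (by positivity)]
    linarith
  obtain ⟨wp, wl⟩ := wt_chi h k c
  have cu : Cut (C.B j) C.R (F.n C) (F.m C) C.ri (ps * C.fn K.chi) (rl A L * (ps * C.fn K.lay)) :=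
    ⟨wp, I.wt_rl wl L0, fun y => cut_pt h k ⟨j, y⟩ c
      (hL ⟨j, y⟩ _ (G ⟨j, y⟩) (d1.trans (by norm_num)))⟩
  have ci : (C.B j).c C.ri = C.ri := re_ri h j
  have m := chain2_sum I (frame h s.ga.is j) (by norm_num) cu
    ⟨re_ri h j, fun y => (inv_pos.2 (rr_pos h ⟨j, y⟩)).le.trans_eq (val_ri h ⟨j, y⟩).symm⟩
    (tab2 h k j (fun y => G ⟨j, y⟩) d1 hl a) (fun w w' => (am w w' : A) * C.ri)
    (U := fun w => ex (V w)) (S := fun w => ex (SA w)) (S' := fun w => ex (SB w))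
    (fun w i hi => by
      have := S.eqA w ⟨i, hi⟩
      simp only [ex, hi, show i < 5 by omega, show i + 1 < 5 by omega, dite_true, pA]
      exact this.trans (add_assoc _ _ _))
    (fun w i hi => by
      have := S.eqB w ⟨i, hi⟩
      simp only [ex, hi, show i < 5 by omega, show i + 1 < 5 by omega, dite_true, pB, map_mul,
        map_intCast, ci]
      exact this.trans (by simp only [Fin.castSucc_mk, Fin.succ_mk]; ring))
  simp only [P354XZ.Cut.E, P354XZ.Cut.L, Ch.dS, mul_sum, J_sum, mul_add, J_add,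
    E_dn j (h.c_eq j)]
  have a1 := sum_le_sum fun w (_ : w ∈ univ) => sum_low h k l wp (V w)
  have a2 := sum_le_sum fun w (_ : w ∈ univ) => sum_src h k l wp e0 (V w) (SA w) (SB w)
  have a3 := sum_le_sum fun w (_ : w ∈ univ) => sum_lay h k l wl L0 (V w)
  rw [sum_add_distrib, ← mul_sum, ← mul_sum] at a2
  rw [← mul_sum] at a1 a3
  have y0 : 0 ≤ ∑ w, (∑ i, (C.B j).nsq (ps * C.fn K.chi * C.fn (C.OA K.p l i)) (SA w i) +
      ∑ i, (C.B j).nsq (ps * C.fn K.chi * C.fn (C.OB K.p l i)) (SB w i)) :=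
    sum_nonneg fun w _ => add_nonneg (sum_nonneg fun i _ => Y_nonneg h k l wp _ _ _)
      (sum_nonneg fun i _ => Y_nonneg h k l wp _ _ _)
  have z0 : 0 ≤ ∑ w, ∑ i, (C.B j).nsq (ps * C.fn K.lay * C.fn (C.DL K.p l i)) (V w i) :=
    sum_nonneg fun w _ => sum_nonneg fun i _ => Z_nonneg h k l wl _ _
  simp only [← mul_add, ← mul_sum]
  rw [div_mul_eq_mul_div, le_div_iff₀ (by positivity), show 8 / e = 2 * (4 / e) by ring]
  rw [show c0 ^ 3 = 32000 * e by rw [he]; ring] at a1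
  linarith [mul_nonneg L0 y0, mul_nonneg (show 0 ≤ 4 / e by positivity) z0]

end Vale.Agent.P354YP
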