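import Vale.Agent.P354YP.Frm
import Vale.Agent.P354YP.Wt

/-!
Pointwise bounds of the frame components and of the divergences.
-/

namespace Vale.Agent.P354YP

open Vale.Agent.P354XG (Der D_mul D_add D_sub D_neg D_alg D_one D_num)
open Vale.Agent.P354XI Vale.Agent.P354XI.Ibp Vale.Agent.P354XZ Finset

variable {A : Type} [CommRing A] [Algebra ℂ A] {C : Ch A}

theorem jet_one (f : A) (x : C.Pt) : C.jet 1 f x = C.md x f + (C.md x (C.T f) +
    C.md x (C.r * C.R f) + C.md x (C.Om 0 f) + C.md x (C.Om 1 f) + C.md x (C.Om 2 f)) := by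
  simp [Ch.jet, Ch.je, Ch.X, sum_range_succ, Fin.sum_univ_five]

/-- The bounds which follow from a bound of the first jet. -/
structure J1 (C : Ch A) (x : C.Pt) (f : A) (e : ℝ) : Prop where
  v : C.md x f ≤ e
  T : C.md x (C.T f) ≤ e
  L : C.md x (C.r * C.R f) ≤ e
  R : C.md x (C.R f) ≤ e * (C.rr x)⁻¹
  a : ∀ a, C.md x (C.an a f) ≤ 2 * e

theorem j1_of (h : C.Is) {x : C.Pt} {f : A} {e : ℝ} (k : C.jet 1 f x ≤ e) : J1 C x f e := by
  rw [jet_one] at k
  have p : ∀ g, 0 ≤ C.md x g := fun g => md_nonneg _ g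
  have L : C.md x (C.r * C.R f) ≤ e := by
    linarith [p f, p (C.T f), p (C.Om 0 f), p (C.Om 1 f), p (C.Om 2 f)]
  refine ⟨by linarith [p (C.r * C.R f), p (C.T f), p (C.Om 0 f), p (C.Om 1 f), p (C.Om 2 f)],
    by linarith [p f, p (C.r * C.R f), p (C.Om 0 f), p (C.Om 1 f), p (C.Om 2 f)], L, ?_,
    fun a => ?_⟩
  · rw [Ch.md, md_mul, ← Ch.md, ← Ch.md, md_r h, mul_comm] at L
    exact (le_mul_inv_iff₀ (rr_pos h x)).2 L
  · rw [h.an_eq, Fin.sum_univ_three]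
    have q : ∀ i, C.md x (C.mu a i * C.Om i f) ≤ 2 * C.md x (C.Om i f) := fun i => by
      rw [Ch.md, md_mul]; exact mul_le_mul_of_nonneg_right (h.mu_le a i x) (p _)
    have := md_add x.2 (C.mu a 0 * C.Om 0 f + C.mu a 1 * C.Om 1 f) (C.mu a 2 * C.Om 2 f)
    have := md_add x.2 (C.mu a 0 * C.Om 0 f) (C.mu a 1 * C.Om 1 f)
    simp only [Ch.md] at *
    linarith [q 0, q 1, q 2, p f, p (C.T f), p (C.r * C.R f)]

theorem sy_le (h : C.Is) {a : ℝ} {f : A} (s : C.Sy a f) :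
    ∃ K, 0 ≤ K ∧ ∀ x, J1 C x f (K * C.rr x ^ (-a)) := by
  obtain ⟨K, hK⟩ := s.2 1
  exact ⟨|K|, abs_nonneg K, fun x => j1_of h ((hK x).trans (mul_le_mul_of_nonneg_right
    (le_abs_self K) (Real.rpow_nonneg (rr_pos h x).le _)))⟩

/-- The values of ut and of the density factor. -/
noncomputable def tt (C : Ch A) (x : C.Pt) : ℝ := C.ut x.1 (C.uu x)
noncomputable def ga (C : Ch A) (x : C.Pt) : ℝ := tt C x ^ (-1 - 1 / 20 : ℝ)

theorem one_le_tt (h : C.Is) (x : C.Pt) : 1 ≤ tt C x := one_le_ut (one_le_U0 h _)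
theorem ga_pos (h : C.Is) (x : C.Pt) : 0 < ga C x :=
  Real.rpow_pos_of_pos (one_pos.trans_le (one_le_tt h x)) _

/-- The bounds. -/
structure Gb (C : Ch A) (F : NF A) (x : C.Pt) (d : ℝ) : Prop where
  nu : C.md x (F.nc 0 - 2) ≤ d
  nr : C.md x (F.nc 1 + 1) ≤ d * (1 + C.rr x * ga C x)
  mu : C.md x (F.mc 0) ≤ d * (tt C x * (C.rr x)⁻¹)
  mu' : C.md x (F.mc 0) ≤ d
  mr : C.md x (F.mc 1) ≤ d
  dn : C.md x (dv C F.nc) ≤ d * ((C.rr x)⁻¹ + ga C x)
  dm : C.md x (dv C F.mc) ≤ d * (C.rr x)⁻¹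

theorem md_add' (x : C.Pt) (f g : A) : C.md x (f + g) ≤ C.md x f + C.md x g := md_add _ f g

theorem md_dv (x : C.Pt) (a : Fin 5 → A) : C.md x (dv C a) ≤ C.md x (C.T (a 0)) +
    C.md x (C.R (a 1)) + C.md x (C.an 0 (a 2)) + C.md x (C.an 1 (a 3)) + C.md x (C.an 2 (a 4)) := by
  rw [dv]
  refine (md_add' x _ _).trans (add_le_add_left ((md_add' x _ _).trans (add_le_add_left
    ((md_add' x _ _).trans (add_le_add_left (md_add' x _ _) _)) _)) _)

variable {F F0 : NF A} {t : Fin 4 → A} {K : P354XZ.Cut C}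

theorem small (s : St C F F0 t K 1) (x : C.Pt) : 0 ≤ K.ep x.1 ∧ K.ep x.1 ≤ K.de x.1 ∧
    (C.rr x)⁻¹ ≤ K.de x.1 ∧ (tt C x)⁻¹ ≤ K.de x.1 := by
  have h := s.ga.ch
  have e0 := s.cut.ep x.1
  obtain ⟨p1, p2, -⟩ := s.cut.ple _ _ (h.dom x)
  have e1 : K.ep x.1 ≤ K.ep x.1 * K.pm x.1 := le_mul_of_one_le_right e0 (p1.trans p2)
  have R1 := one_le_R0 h x.1
  have e2 : (C.R0 x.1)⁻¹ ≤ C.R0 x.1 ^ (-1 / 10 : ℝ) := by
    rw [← Real.rpow_neg_one]; exact Real.rpow_le_rpow_of_exponent_le R1 (by norm_num)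
  have e3 : 0 < (C.R0 x.1)⁻¹ := by positivity
  have e4 := inv_anti₀ (by linarith) (R0_le h x)
  have e5 : (tt C x)⁻¹ ≤ (C.R0 x.1)⁻¹ := inv_anti₀ (by linarith) ((h.one_le _).2.trans le_ut)
  rw [P354XZ.Cut.de]
  exact ⟨e0, by linarith, by linarith, by linarith⟩

theorem gb (s : St C F F0 t K 1) : ∃ K0, 0 ≤ K0 ∧ ∀ x, Gb C F x (K0 * K.de x.1) := by
  have h := s.ga.ch
  have f := s.ga.rf
  obtain ⟨a0, p0, b0⟩ := sy_le h f.n0
  obtain ⟨a1, p1, b1⟩ := sy_le h f.n1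
  obtain ⟨a2, p2, b2⟩ := sy_le h f.na.1
  obtain ⟨a3, p3, b3⟩ := sy_le h f.na.2.1
  obtain ⟨a4, p4, b4⟩ := sy_le h f.na.2.2
  obtain ⟨a5, p5, b5⟩ := sy_le h f.m0.1
  obtain ⟨a6, p6, b6⟩ := sy_le h f.m0.2
  obtain ⟨a7, p7, b7⟩ := sy_le h f.ma.1
  obtain ⟨a8, p8, b8⟩ := sy_le h f.ma.2.1
  obtain ⟨a9, p9, b9⟩ := sy_le h f.ma.2.2
  refine ⟨10 + 2 * (a0 + a1 + a2 + a3 + a4 + a5 + a6 + a7 + a8 + a9), by positivity, fun x => ?_⟩
  obtain ⟨e0, e1, e2, e3⟩ := small s x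
  obtain ⟨tb, tg, -⟩ := s.tab x trivial
  have r1 := one_le_rr h x
  have r0 := rr_pos h x
  have t1 := one_le_tt h x
  have g0 := ga_pos h x
  set i := (C.rr x)⁻¹ with hi
  have i0 : 0 < i := inv_pos.2 r0
  have i1 : i ≤ 1 := inv_le_one_of_one_le₀ r1
  have g1 : ga C x ≤ 1 := Real.rpow_le_one_of_one_le_of_nonpos t1 (by norm_num)
  have w1 : C.rr x ^ (-1 : ℝ) = i := Real.rpow_neg_one _
  have w2 : C.rr x ^ (-2 : ℝ) = i * i := by
    rw [← w1, ← Real.rpow_add r0]; norm_num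
  have sb : C.at' C.Sb x ≤ ga C x := by
    simp only [Ch.at', Ch.Sb, Ch.mon, Real.rpow_zero, one_mul]
    exact Real.rpow_le_rpow_of_exponent_le t1 (by norm_num)
  have sg : C.at' C.Sg x ≤ i := by
    simp only [Ch.at', Ch.Sg, Ch.mon, Real.rpow_zero, mul_one, w1]
    exact mul_le_of_le_one_right i0.le (Real.rpow_le_one_of_one_le_of_nonpos t1 (by norm_num))
  set d := K.de x.1
  have d0 : 0 ≤ d := e0.trans e1
  have B : ∀ k, J1 C x ((F.df F0 C).b k) (d * ga C x) := fun k =>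
    j1_of h ((tb k).trans (mul_le_mul e1 sb (by
      simp only [Ch.at', Ch.Sb, Ch.mon]
      exact mul_nonneg (by simp) (Real.rpow_nonneg ut_nonneg _)) d0))
  have G : ∀ k, J1 C x ((F.df F0 C).g k) (d * i) := fun k =>
    j1_of h ((tg k).trans (mul_le_mul e1 sg (by
      simp only [Ch.at', Ch.Sg, Ch.mon, Real.rpow_zero, mul_one, w1]
      exact mul_nonneg i0.le (Real.rpow_nonneg ut_nonneg _)) d0))
  have Al : J1 C x F.al (d * i) := j1_of h ((s.al x).trans (by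
    simp only [Ch.at', Ch.mon, Real.rpow_zero, mul_one, w1]
    exact mul_le_mul_of_nonneg_right e1 i0.le))
  have B2 := B 2
  have B3 := B 3
  have B4 := B 4
  have B5 := B 5
  have B6 := B 6
  have G4 := G 4
  have G5 := G 5
  have G6 := G 6
  have G7 := G 7
  have G8 := G 8
  simp only [NF.df, NF.gb, NF.g1, Pi.sub_apply, Matrix.cons_val] at B2 B3 B4 B5 B6 G4 G5 G6 G7 G8
  rw [f.al, sub_zero] at G4
  have em : F.mc 0 = F.mc 0 - F.al - F0.mc 0 + F.al + F0.mc 0 := by ring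
  have c0 := b0 x
  have c1 := b1 x
  have c2 := b2 x
  have c3 := b3 x
  have c4 := b4 x
  have c5 := b5 x
  have c6 := b6 x
  have c7 := b7 x
  have c8 := b8 x
  have c9 := b9 x
  rw [w2] at c0 c2 c3 c4 c7 c8 c9
  rw [w1] at c1 c5 c6
  have Rr : C.R C.r = 1 := h.D_r 1
  have mr : ∀ g, C.md x (C.r * g) = C.rr x * C.md x g := fun g => by
    rw [Ch.md, md_mul, ← Ch.md, md_r h, Ch.md]
  have sp : ∀ (D : Der A) (u v : A), C.md x (D u) ≤ C.md x (D (u - v)) + C.md x (D v) :=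
    fun D u v => by
      have := md_add' x (D (u - v)) (D v)
      rwa [← D_add, sub_add_cancel] at this
  have spr : ∀ u v : A, C.md x (C.R u) ≤ C.md x (C.ri * u - C.ri * v) +
      C.md x (C.r * C.R (C.ri * u - C.ri * v)) + C.md x (C.R v) := fun u v => by
    have e : u = C.r * (C.ri * u - C.ri * v) + v := by linear_combination (v - u) * h.hr
    have e' : C.R u = (C.ri * u - C.ri * v) + C.r * C.R (C.ri * u - C.ri * v) + C.R v := by
      conv_lhs => rw [e, D_add, D_mul, Rr]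
      ring
    rw [e']
    exact (md_add' x _ _).trans (add_le_add_left (md_add' x _ _) _)
  have ii : i * i ≤ d * i := mul_le_mul_of_nonneg_right e2 i0.le
  have ti : i ≤ d * (tt C x * i) := by
    have : 1 ≤ d * tt C x := (inv_le_iff_one_le_mul₀ (by linarith)).1 e3
    nlinarith
  have t2 : i ≤ tt C x * i := le_mul_of_one_le_left i0.le t1
  have ri : C.rr x * i = 1 := mul_inv_cancel₀ r0.ne'
  have di : 0 ≤ d * i := by positivity
  have dg : 0 ≤ d * ga C x := by positivity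
  have m0 : C.md x (F.mc 0) ≤ 2 * (d * i) + a5 * i := by
    have := md_add' x (F.mc 0 - F.al - F0.mc 0 + F.al) (F0.mc 0)
    rw [← em] at this
    linarith [G4.v, c5.v, Al.v, md_add' x (F.mc 0 - F.al - F0.mc 0) F.al]
  generalize hS : a0 + a1 + a2 + a3 + a4 + a5 + a6 + a7 + a8 + a9 = S
  have S0 : 0 ≤ S := by rw [← hS]; positivity
  have Sd : 0 ≤ S * d := by positivity
  have k1 : ∀ a, 0 ≤ a → a * (i * i) ≤ a * (d * i) := fun a ha => mul_le_mul_of_nonneg_left ii ha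
  refine ⟨?_, ?_, ?_, ?_, ?_, ?_, ?_⟩
  · have := md_add' x (F.nc 0 - F0.nc 0) (F0.nc 0 - 2)
    rw [sub_add_sub_cancel] at this
    have k := mul_le_mul_of_nonneg_left (ii.trans (mul_le_of_le_one_right d0 i1)) p0
    have := mul_le_mul_of_nonneg_right (show a0 ≤ S by linarith) d0
    linarith [B2.v, c0.v, mul_le_of_le_one_right d0 g1]
  · have := md_add' x (C.r * (C.ri * F.nc 1 - C.ri * F0.nc 1)) (F0.nc 1 + 1)
    rw [show C.r * (C.ri * F.nc 1 - C.ri * F0.nc 1) + (F0.nc 1 + 1) = F.nc 1 + 1 by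
      linear_combination (F.nc 1 - F0.nc 1) * h.hr, mr] at this
    have k := mul_le_mul_of_nonneg_left e2 p1
    have k2 := mul_le_mul_of_nonneg_left B3.v r0.le
    have := mul_le_mul_of_nonneg_right (show a1 ≤ S by linarith) d0
    have : 0 ≤ S * (C.rr x * (d * ga C x)) := by positivity
    have : 0 ≤ C.rr x * (d * ga C x) := by positivity
    linarith [c1.v]
  · have := mul_le_mul_of_nonneg_left ti p5
    have := mul_le_mul_of_nonneg_left t2 d0
    have := mul_le_mul_of_nonneg_right (show a5 ≤ S by linarith)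
      (show 0 ≤ d * (tt C x * i) by positivity)
    have : 0 ≤ S * (d * (tt C x * i)) := by positivity
    linarith
  · have := mul_le_mul_of_nonneg_left e2 p5
    have := mul_le_mul_of_nonneg_right (show a5 ≤ S by linarith) d0
    linarith [mul_le_of_le_one_right d0 i1]
  · have := md_add' x (C.r * (C.ri * F.mc 1 - C.ri * F0.mc 1)) (F0.mc 1)
    rw [show C.r * (C.ri * F.mc 1 - C.ri * F0.mc 1) + F0.mc 1 = F.mc 1 by
      linear_combination (F.mc 1 - F0.mc 1) * h.hr, mr] at this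
    have k := mul_le_mul_of_nonneg_left e2 p6
    have k2 := mul_le_mul_of_nonneg_left G5.v r0.le
    rw [mul_left_comm, ri, mul_one] at k2
    have := mul_le_mul_of_nonneg_right (show a6 ≤ S by linarith) d0
    linarith [c6.v]
  · have u0 := sp C.T (F.nc 0) (F0.nc 0)
    have u1 := spr (F.nc 1) (F0.nc 1)
    have v0 := c0.T
    have v1 := c1.R
    rw [D_sub, D_num, sub_zero] at v0
    rw [D_add, D_one, add_zero] at v1
    have := mul_le_mul_of_nonneg_right (show a0 + a1 + a2 + a3 + a4 ≤ S by linarith) di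
    have : 0 ≤ S * (d * ga C x) := by positivity
    linarith [md_dv x F.nc, sp (C.an 0) (F.nc 2) (F0.nc 2), sp (C.an 1) (F.nc 3) (F0.nc 3),
      sp (C.an 2) (F.nc 4) (F0.nc 4), B2.T, B3.v, B3.L, B4.a 0, B5.a 1, B6.a 2, c2.a 0, c3.a 1,
      c4.a 2, k1 a0 p0, k1 a1 p1, k1 a2 p2, k1 a3 p3, k1 a4 p4, mul_nonneg p0 di, mul_nonneg p1 di,
      mul_nonneg p2 di, mul_nonneg p3 di, mul_nonneg p4 di]
  · have u0 : C.md x (C.T (F.mc 0)) ≤ 2 * (d * i) := by
      rw [em, D_add, D_add, f.m0.1.1, add_zero]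
      linarith [G4.T, Al.T, md_add' x (C.T (F.mc 0 - F.al - F0.mc 0)) (C.T F.al)]
    have u1 := spr (F.mc 1) (F0.mc 1)
    have v1 := c6.R
    have v2 := c8.a 1
    have z : C.an 1 C.ri = 0 := by
      have := congrArg (C.an 1) h.hr
      rw [D_mul, D_one, show C.an 1 C.r = 0 from h.D_r 3] at this
      linear_combination C.ri * this - C.an 1 C.ri * h.hr
    rw [D_sub, z, sub_zero] at v2
    have := mul_le_mul_of_nonneg_right (show a6 + a7 + a8 + a9 ≤ S by linarith) di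
    linarith [md_dv x F.mc, sp (C.an 0) (F.mc 2) (F0.mc 2), sp (C.an 1) (F.mc 3) (F0.mc 3),
      sp (C.an 2) (F.mc 4) (F0.mc 4), G5.v, G5.L, G6.a 0, G7.a 1, G8.a 2, c7.a 0,
      c9.a 2, k1 a6 p6, k1 a7 p7, k1 a8 p8, k1 a9 p9, mul_nonneg p6 di, mul_nonneg p7 di,
      mul_nonneg p8 di, mul_nonneg p9 di]

end Vale.Agent.P354YP
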