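import Vale.Agent.P354YP.Pair

/-!
All first derivatives of a member of a pair are bounded by the time derivative.
-/

namespace Vale.Agent.P354YP

open Vale.Agent.P354XG (Der D_mul D_add D_sub D_neg D_alg)
open Vale.Agent.P354XI Vale.Agent.P354XI.Ibp

variable {A : Type} [CommRing A] [Algebra ℂ A]

/-- The element u has compact support and is bounded by the geometric mean of w and W. -/
structure Gm (B : Ibp A) (w W u : A) : Prop where
  K : u ∈ B.K
  le : ∀ x, B.md x u ^ 2 ≤ B.val x w * B.val x W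

variable {B : Ibp A} {l n m mb : Der A} {dl dn dm dmb w W : A}

theorem Gm.self (h : B.Is) (hw : B.Wt w) : Gm B w w w :=
  ⟨hw.K, fun x => by rw [h.md_re hw.re, sq_abs, sq]⟩

theorem Gm.c (h : B.Is) {u : A} (g : Gm B w W u) : Gm B w W (B.c u) :=
  ⟨h.K_c u g.K, fun x => by rw [h.md_c]; exact g.le x⟩

theorem Gm.symm {u : A} (g : Gm B w W u) : Gm B W w u :=
  ⟨g.K, fun x => by rw [mul_comm]; exact g.le x⟩

/-- The Young inequality with a parameter. -/
theorem Gm.young (h : B.Is) (hw : B.Wt w) (hW : B.Wt W) {u : A} (g : Gm B w W u) {s t : ℝ}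
    (hs : 0 ≤ s) (ht : 0 ≤ t) (e : 1 ≤ 4 * (s * t)) (f f' : A) :
    |B.bil u f f'| ≤ s * B.nsq w f + t * B.nsq W f' := by
  rw [← nsq_rl_w, ← nsq_rl_w]
  refine h.young g.K (h.wt_rl hw hs) (h.wt_rl hW ht) f f' fun x => ?_
  rw [h.val_mul (h.re_rl s), h.val_mul (h.re_rl t), h.val_rl, h.val_rl]
  have := mul_le_mul_of_nonneg_right e (mul_nonneg (hw.pos x) (hW.pos x))
  nlinarith [g.le x]

/-- The estimate of the first derivatives. -/
theorem j1 (h : B.Is) (F : Fr B l n m mb dl dn dm dmb) (hw : B.Wt w) (hW : B.Wt W)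
    {a b J J' c1 c2 c3 Z e1 e2 e3 e4 Y : A} (ha : n a = m b + J') (hb : l b = mb a + J)
    (hc : l (m b) = m (l b) + c1 * m b + c2 * mb b + c3 * l b + Z)
    (he : m (mb a) = mb (m a) + (e1 * l a + e2 * n a + e3 * m a + e4 * mb a + Y))
    (gl : Gm B w W (l w + dl * w)) (gm : Gm B w W (m w + dm * w))
    (gb : Gm B w W (mb w + dmb * w))
    (g1 : Gm B w W (w * B.c c1)) (g2 : Gm B w W (w * B.c c2)) (g3 : Gm B w W (w * B.c c3))
    (g4 : Gm B W W (m (w * B.c c2) + dm * (w * B.c c2)))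
    (k1 : Gm B w W (w * B.c e1)) (k2 : Gm B w W (w * B.c e2)) (k3 : Gm B w W (w * B.c e3))
    (k4 : Gm B w W (w * B.c e4)) :
    B.nsq w (l a) + B.nsq w (n a) + B.nsq w (m a) + B.nsq w (mb a) ≤
      4 * B.nsq w (l a + n a) + 1000 * (B.nsq W a + B.nsq W b + B.nsq w J + B.nsq w J') +
        8 * (|B.bil w a Z| + |B.bil w a Y|) := by
  have i1 := j1_id F hw.K ha hb hc
  have i2 := ang_id F hw.K he
  have y : ∀ {u : A}, Gm B w W u → ∀ f, |B.bil u a f| ≤ 16 * B.nsq W a + 1 / 64 * B.nsq w f :=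
    fun g f => g.symm.young h hW hw (by norm_num) (by norm_num) (by norm_num) a f
  have z : ∀ f g, |B.bil w f g| ≤ 1 / 64 * B.nsq w f + 16 * B.nsq w g := fun f g =>
    (Gm.self h hw).young h hw hw (by norm_num) (by norm_num) (by norm_num) f g
  have s : B.nsq w (l a + n a) = B.nsq w (l a) + B.nsq w (n a) + 2 * B.bil w (l a) (n a) := by
    have := h.bil_comm hw.K hw.re (l a) (n a)
    simp only [nsq, bil_add_l, bil_add_r] at this ⊢
    linarith
  simp only [bil_add_r, bil_sub_r, bil_add_w, bil_sub_w (w * B.c c3), bil_mul_r] at i1 i2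
  have a1 := abs_le.1 (z (l a) J')
  have a2 := abs_le.1 (z (mb a) J)
  have a3 := abs_le.1 (y gl (n a))
  have a4 := abs_le.1 (y gl J')
  have a5 := abs_le.1 (y g1 (n a))
  have a6 := abs_le.1 (y g1 J')
  have a7 := abs_le.1 (y g3 (mb a))
  have a8 := abs_le.1 (y g3 J)
  have a9 := abs_le.1 (y gb (mb a))
  have b1 := abs_le.1 (y gb J)
  have b2 := abs_le.1 (g2.young h hw hW (s := 1 / 64) (t := 16) (by norm_num) (by norm_num)
    (by norm_num) (m a) b)
  have b3 := abs_le.1 (g4.young h hW hW (s := 1) (t := 1) (by norm_num) (by norm_num)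
    (by norm_num) a b)
  have b4 := abs_le.1 (y gm (m a))
  have b5 := abs_le.1 (y k1 (l a))
  have b6 := abs_le.1 (y k2 (n a))
  have b7 := abs_le.1 (y k3 (m a))
  have b8 := abs_le.1 (y k4 (mb a))
  simp only [bil_add_w] at a3 a4 a9 b1 b3 b4
  have p1 := h.nsq_nonneg hw (l a)
  have p2 := h.nsq_nonneg hw (n a)
  have p3 := h.nsq_nonneg hw (m a)
  have p4 := h.nsq_nonneg hw (mb a)
  have p5 := h.nsq_nonneg hW a
  have p6 := h.nsq_nonneg hW b
  have p7 := h.nsq_nonneg hw J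
  have p8 := h.nsq_nonneg hw J'
  have p9 := h.nsq_nonneg hw (l a + n a)
  have q1 := le_abs_self (B.bil w a Z)
  have q2 := le_abs_self (B.bil w a Y)
  have q3 := abs_nonneg (B.bil w a Y)
  have q4 := abs_nonneg (B.bil w a Z)
  linarith [a1.1, a2.1, a3.2, a4.1, a5.2, a6.1, a7.2, a8.2, a9.1, a9.2, b1.1, b2.1, b3.1, b4.1,
    b5.2, b6.2, b7.2, b8.2]

end Vale.Agent.P354YP
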