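import Mathlib

/-!
The numerical inequalities of the table of weights.
-/

namespace Vale.Agent.P354YP

/-- The numbers at a point: i = 1 / r, w = 1 / v, s = 1 / ut, g the density factor, z = r g, c and
c' the derivatives of v and ut, h minus the logarithmic derivative of the ghost. -/
structure Nm (i w s g z c c' h nu nr d : ℝ) : Prop where
  i0 : 0 < i
  w0 : 0 < w
  wi : 2 * w ≤ i
  ws : w ≤ 2 * s
  g0 : 0 < g
  z0 : 0 ≤ z
  zi : z * i = g
  c0 : 0 ≤ c
  c1 : c ≤ 1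
  c2 : |c'| ≤ 1
  h0 : g / 320 ≤ h
  h1 : h ≤ s
  d0 : 0 ≤ d
  d1 : d ≤ 1 / 100000
  nu : |nu - 2| ≤ d
  nr : |nr + 1| ≤ d * (1 + z)

namespace Nm
variable {i w s g z c c' h nu nr d a b e p : ℝ} (N : Nm i w s g z c c' h nu nr d)
include N

theorem zw : 2 * (z * w) ≤ g := by nlinarith [mul_le_mul_of_nonneg_left N.wi N.z0, N.zi]

theorem gh : -(h * nu) ≤ -(g / 320) := by
  have := (abs_le.1 N.nu).1
  have := N.d1
  nlinarith [N.h0, N.g0]

/-- The first pair. -/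
theorem n0 (b0 : 0 ≤ b) (b3 : b ≤ 3) (p0 : 0 ≤ p) (p4 : p ≤ 4 * i) (a2 : a = 43 / 20) :
    (b * (c * w) + 0 * (c' * s) - h) * nu + (a * i + b * (2 * w) + p) * nr + d * (i + g) + 2 * i ≤
      -(1 / 1000 * i) - 1 / 1000 * g := by
  obtain ⟨u1, u2⟩ := abs_le.1 N.nu
  obtain ⟨r1, r2⟩ := abs_le.1 N.nr
  have d0 := N.d0
  have d1 := N.d1
  have i0 := N.i0
  have w0 := N.w0
  have g0 := N.g0
  have dz := mul_nonneg d0 N.z0
  have e1 : c * nu + 2 * nr ≤ 3 * d + 2 * (d * z) := by nlinarith [N.c0, N.c1]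
  have e2 : b * w * (c * nu + 2 * nr) ≤ 3 * w * (3 * d + 2 * (d * z)) :=
    (mul_le_mul_of_nonneg_left e1 (by positivity)).trans (by gcongr)
  have e3 : (a * i + p) * nr ≤ (a * i + p) * (-1 + d * (1 + z)) :=
    mul_le_mul_of_nonneg_left (by linarith) (by rw [a2]; positivity)
  have e4 : (a * i + p) * (d * (1 + z)) ≤ 7 * i * (d * (1 + z)) :=
    mul_le_mul_of_nonneg_right (by rw [a2]; linarith) (by linarith)
  have e5 := mul_le_mul_of_nonneg_left N.zw d0
  have e6 := mul_le_mul_of_nonneg_left N.wi d0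
  have e7 : d * (z * i) = d * g := by rw [N.zi]
  have e8 := mul_le_mul_of_nonneg_right d1 i0.le
  have e9 := mul_le_mul_of_nonneg_right d1 g0.le
  subst a2
  linarith [N.gh]

/-- The other pairs. -/
theorem ni (b3 : |b| ≤ 3) (e0 : 0 ≤ e) (p4 : |p| ≤ 4 * i) (a0 : 0 ≤ a) (a3 : a ≤ 3) :
    (b * (c * w) + e * (c' * s) - h) * nu + (a * i + b * (2 * w) + p) * nr + d * (i + g) + 8 * i ≤
      34 * i + 3 * (e * s) - 1 / 1000 * g := by
  obtain ⟨u1, u2⟩ := abs_le.1 N.nu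
  obtain ⟨r1, r2⟩ := abs_le.1 N.nr
  have d0 := N.d0
  have d1 := N.d1
  have i0 := N.i0
  have w0 := N.w0
  have g0 := N.g0
  have s0 : 0 < s := by linarith [N.ws]
  have dz := mul_nonneg d0 N.z0
  have n3 : |nu| ≤ 3 := abs_le.2 ⟨by linarith, by linarith⟩
  have n2 : |nr| ≤ 2 + d * z := abs_le.2 ⟨by linarith, by linarith⟩
  have e1 : |c * nu + 2 * nr| ≤ 7 + 2 * (d * z) :=
    abs_le.2 ⟨by nlinarith [N.c0, N.c1], by nlinarith [N.c0, N.c1]⟩
  have e2 : b * w * (c * nu + 2 * nr) ≤ 3 * w * (7 + 2 * (d * z)) := by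
    refine (le_abs_self _).trans ?_
    rw [abs_mul, abs_mul, abs_of_pos w0]
    gcongr
  have e3 : (a * i + p) * nr ≤ 7 * i * (2 + d * z) := by
    refine (le_abs_self _).trans ?_
    rw [abs_mul]
    refine mul_le_mul ((abs_add_le _ _).trans ?_) n2 (abs_nonneg _) (by positivity)
    rw [abs_of_nonneg (by positivity)]
    nlinarith
  have e4 : e * (c' * s) * nu ≤ e * (1 * s) * 3 := by
    refine (le_abs_self _).trans ?_
    rw [abs_mul, abs_mul, abs_mul, abs_of_nonneg e0, abs_of_pos s0]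
    gcongr
    exact N.c2
  have e5 := mul_le_mul_of_nonneg_left N.zw d0
  have e7 : d * (z * i) = d * g := by rw [N.zi]
  have e8 := mul_le_mul_of_nonneg_right d1 i0.le
  have e9 := mul_le_mul_of_nonneg_right d1 g0.le
  linarith [N.gh, N.wi]

/-- The angular derivative. -/
theorem mi {mu mr t : ℝ} (b3 : |b| ≤ 3) (e0 : 0 ≤ e) (e3 : e ≤ 3) (p4 : |p| ≤ 4 * i) (a0 : 0 ≤ a)
    (a3 : a ≤ 3) (st : s * t = 1) (m0 : 0 ≤ mu) (m1 : mu ≤ d * (t * i)) (m2 : 0 ≤ mr)
    (m3 : mr ≤ d) :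
    |b * (c * w) + e * (c' * s) - h| * mu + |a * i + b * (2 * w) + p| * mr + d * i ≤
      1 / 4000 * i := by
  have d0 := N.d0
  have i0 := N.i0
  have w0 := N.w0
  have s0 : 0 < s := by linarith [N.ws]
  have h0 : 0 ≤ h := by linarith [N.h0, N.g0]
  have e1 : |b * (c * w)| ≤ 3 * (1 * w) := by
    rw [abs_mul, abs_mul, abs_of_nonneg N.c0, abs_of_pos w0]
    gcongr
    exacts [mul_nonneg N.c0 w0.le, N.c1]
  have e2 : |e * (c' * s)| ≤ 3 * (1 * s) := by
    rw [abs_mul, abs_mul, abs_of_nonneg e0, abs_of_pos s0]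
    gcongr
    exact N.c2
  have e3 : |b * (c * w) + e * (c' * s) - h| ≤ 10 * s := by
    have := abs_le.1 e1
    have := abs_le.1 e2
    exact abs_le.2 ⟨by linarith [N.ws, N.h1], by linarith [N.ws]⟩
  have e4 : |b * (2 * w)| ≤ 3 * i := by
    rw [abs_mul, abs_of_pos (by positivity : 0 < 2 * w)]
    exact mul_le_mul b3 N.wi (by positivity) (by norm_num)
  have e5 : |a * i + b * (2 * w) + p| ≤ 10 * i := by
    have := abs_le.1 e4
    have := abs_le.1 p4
    have := mul_le_mul_of_nonneg_right a3 i0.le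
    have := mul_nonneg a0 i0.le
    exact abs_le.2 ⟨by linarith, by linarith⟩
  have e6 := mul_le_mul e3 m1 m0 (by positivity)
  have e7 := mul_le_mul e5 m3 m2 (by positivity)
  have e8 : 10 * s * (d * (t * i)) = 10 * (d * i) := by linear_combination 10 * d * i * st
  linarith [mul_le_mul_of_nonneg_right N.d1 i0.le]

end Nm

end Vale.Agent.P354YP
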