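import Vale.Agent.P354XI.Tool

/-!
The energy identity of one Bianchi pair and the elliptic estimate for all first derivatives from
the time derivative, over the abstract integration by parts ring.
-/

namespace Vale.Agent.P354YP

open Vale.Agent.P354XG (Der D_mul D_add D_sub D_neg D_alg)
open Vale.Agent.P354XI Vale.Agent.P354XI.Ibp

variable {A : Type} [CommRing A] [Algebra ℂ A]

/-- A null frame of derivations with divergences. -/
structure Fr (B : Ibp A) (l n m mb : Der A) (dl dn dm dmb : A) : Prop where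
  vl : B.Dv l dl
  vn : B.Dv n dn
  vm : B.Dv m dm
  vb : B.Dv mb dmb
  cl : ∀ f, B.c (l f) = l (B.c f)
  cn : ∀ f, B.c (n f) = n (B.c f)
  cm : ∀ f, B.c (m f) = mb (B.c f)
  cb : ∀ f, B.c (mb f) = m (B.c f)

variable {B : Ibp A} {l n m mb : Der A} {dl dn dm dmb : A}

theorem Fr.pr (F : Fr B l n m mb dl dn dm dmb) : Fr B n l mb m dn dl dmb dm :=
  ⟨F.vn, F.vl, F.vb, F.vm, F.cn, F.cl, F.cb, F.cm⟩

/-- The pairing of D f with f for a real derivation with divergence. -/
theorem self (h : B.Is) {D : Der A} {d : A} (v : B.Dv D d) (c : ∀ f, B.c (D f) = D (B.c f))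
    {w : A} (hw : w ∈ B.K) (hr : B.Re w) (f : A) :
    2 * B.bil w (D f) f = -B.nsq (D w + d * w) f := by
  have := v.move c hw f f
  rw [h.bil_comm hw hr f] at this
  rw [nsq]; linarith

/-- The energy identity of a pair. -/
theorem pair_id (h : B.Is) (F : Fr B l n m mb dl dn dm dmb) {w : A} (hw : w ∈ B.K) (hr : B.Re w)
    {a b p q S S' : A} (ha : n a = m b + p * a + S) (hb : l b = mb a + q * b + S') :
    -B.nsq (n w + dn * w + 2 * (w * p)) a - B.nsq (l w + dl * w + 2 * (w * q)) b =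
      2 * (B.bil w S a + B.bil w S' b - B.bil (m w + dm * w) b a) := by
  have e1 := self h F.vn F.cn hw hr a
  have e2 := self h F.vl F.cl hw hr b
  have e3 := F.vm.move F.cb hw b a
  rw [h.bil_comm hw hr b] at e3
  rw [ha, bil_add_l, bil_add_l, bil_mul_l] at e1
  rw [hb, bil_add_l, bil_add_l, bil_mul_l] at e2
  rw [nsq_add_w _ (2 * (w * p)), nsq_add_w _ (2 * (w * q))]
  simp only [nsq, bil_two_w] at e1 e2 ⊢
  linarith

/-- A pointwise inequality between real parts of weights. -/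
theorem nsq_le_val (h : B.Is) {w W : A} (hw : w ∈ B.K) (hW : W ∈ B.K) (f : A)
    (e : ∀ x, B.val x w ≤ B.val x W) : B.nsq w f ≤ B.nsq W f := by
  have k : ∀ (u : A) x, B.val x (u * (f * B.c f)) = B.val x u * B.md x f ^ 2 := fun u x => by
    have r : B.Re (f * B.c f) := by rw [Re, map_mul, h.cc, mul_comm]
    rw [mul_comm u, h.val_mul r, h.val_ip, ip_self, mul_comm]
  exact h.J_le (B.K.mul_mem_right _ hw) (B.K.mul_mem_right _ hW) fun x => by
    rw [k, k]; exact mul_le_mul_of_nonneg_right (e x) (sq_nonneg _)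

/-- The pair estimate with pointwise hypotheses on the weight. -/
theorem pair_le (h : B.Is) (F : Fr B l n m mb dl dn dm dmb) {w : A} (hw : w ∈ B.K) (hr : B.Re w)
    {a b p q S S' Ga Gb Ea Eb : A} (ha : n a = m b + p * a + S) (hb : l b = mb a + q * b + S')
    (ka : Ga ∈ B.K) (kb : Gb ∈ B.K) (wa : B.Wt Ea) (wb : B.Wt Eb)
    (ea : ∀ x, B.val x (n w + dn * w + 2 * (w * p)) + B.val x Ga + 2 * B.val x Ea ≤ 0)
    (eb : ∀ x, B.val x (l w + dl * w + 2 * (w * q)) + B.val x Gb + 2 * B.val x Eb ≤ 0)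
    (em : ∀ x, B.md x (m w + dm * w) ^ 2 ≤ 4 * (B.val x Eb * B.val x Ea)) :
    B.nsq Ga a + B.nsq Gb b ≤ 2 * (B.bil w S a + B.bil w S' b) := by
  have k : ∀ (D : Der A) (d u : A), B.Dv D d → D w + d * w + 2 * (w * u) ∈ B.K := fun D d u v =>
    B.K.add_mem (B.K.add_mem (v.K_D w hw) (B.K.mul_mem_left _ hw))
      (B.K.mul_mem_left _ (B.K.mul_mem_right _ hw))
  have i := pair_id h F hw hr ha hb
  have y := h.young (B.K.add_mem (F.vm.K_D w hw) (B.K.mul_mem_left dm hw)) wb wa b a em
  have z : ∀ (g G E f : A), g ∈ B.K → G ∈ B.K → B.Wt E →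
      (∀ x, B.val x g + B.val x G + 2 * B.val x E ≤ 0) →
      B.nsq g f + B.nsq G f + 2 * B.nsq E f ≤ 0 := fun g G E f hg hG hE e => by
    have := nsq_le_val h (B.K.add_mem (B.K.add_mem hg hG) (B.K.mul_mem_left 2 hE.K)) B.K.zero_mem f
      fun x => by rw [val_add, val_add, h.val_mul re_two, val_two, val_zero]; exact e x
    rw [nsq_add_w, nsq_add_w] at this
    simpa only [nsq, bil_two_w, bil_zero_w] using this
  have a1 := z _ _ _ a (k n dn p F.vn) ka wa ea
  have b1 := z _ _ _ b (k l dl q F.vl) kb wb eb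
  linarith [(abs_le.1 y).1]

/-- The identity behind the estimate of the first derivatives. -/
theorem j1_id (F : Fr B l n m mb dl dn dm dmb) {w : A} (hw : w ∈ B.K)
    {a b J J' c1 c2 c3 Z : A} (ha : n a = m b + J') (hb : l b = mb a + J)
    (hc : l (m b) = m (l b) + c1 * m b + c2 * mb b + c3 * l b + Z) :
    B.nsq w (mb a) = B.bil w (l a) (n a) - B.bil w (l a) J' - B.bil w (mb a) J +
      B.bil (l w + dl * w + w * B.c c1) a (n a - J') +
      B.bil (w * B.c c3 - (mb w + dmb * w)) a (mb a + J) - B.bil (w * B.c c2) (m a) b -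
      B.bil (m (w * B.c c2) + dm * (w * B.c c2)) a b + B.bil w a Z := by
  have e1 := F.vb.move F.cm hw a (l b)
  have e2 := F.vl.move F.cl hw a (m b)
  have e3 := F.vm.move F.cb (B.K.mul_mem_right (B.c c2) hw) a b
  have e4 : m b = n a - J' := by rw [ha]; ring
  have e5 : B.nsq w (mb a) = B.bil w (mb a) (l b) - B.bil w (mb a) J := by
    rw [hb, bil_add_r, nsq]; ring
  rw [hc, bil_add_r, bil_add_r, bil_add_r, bil_add_r, bil_mul_r, bil_mul_r, bil_mul_r] at e2
  rw [bil_add_w _ (w * B.c c1), bil_sub_w (w * B.c c3), ← hb, ← e4, e5]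
  have e6 : B.bil w (l a) (m b) = B.bil w (l a) (n a) - B.bil w (l a) J' := by
    rw [e4, bil_sub_r]
  linarith

/-- The two angular derivatives have the same norm up to lower order terms. -/
theorem ang_id (F : Fr B l n m mb dl dn dm dmb) {w : A} (hw : w ∈ B.K) {a Y : A}
    (hc : m (mb a) = mb (m a) + Y) :
    B.nsq w (m a) = B.nsq w (mb a) + B.bil (mb w + dmb * w) a (mb a) -
      B.bil (m w + dm * w) a (m a) + B.bil w a Y := by
  have e1 := F.vm.move F.cb hw a (m a)
  have e2 := F.vb.move F.cm hw a (mb a)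
  rw [hc, bil_add_r] at e2
  rw [nsq, nsq]
  linarith

end Vale.Agent.P354YP
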