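import Vale.Agent.P354YP.Gb
import Vale.Agent.P354YP.Num

/-!
The table of the weights of the far zone.
-/

open scoped ContDiff

namespace Vale.Agent.P354YP

open Vale.Agent.P354XG (Der D_mul D_add D_sub D_neg D_alg D_one D_num)
open Vale.Agent.P354XI Vale.Agent.P354XI.Ibp Vale.Agent.P354XZ Finset

variable {A : Type} [CommRing A] [Algebra ℂ A] {C : Ch A}

/-- The exponents. -/
noncomputable def ea (i : ℕ) : ℝ := if i = 3 then 2 else 43 / 20
noncomputable def eb (l : ℝ) : ℕ → ℝ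
  | 2 => 17 / 10 - l
  | 3 => -l
  | _ => 14 / 5 - l
noncomputable def ee : ℕ → ℝ
  | 2 => 11 / 10
  | 3 => 14 / 5
  | _ => 0
noncomputable def ek (i : ℕ) : ℝ := if i = 3 then -23 / 20 else -1
noncomputable def c0 : ℝ := 1 / 100000000

/-- The factors which depend on r only. -/
noncomputable def qf {J : Type} (p : Fam J) (i : ℕ) : Fam J := if i = 0 then p else 1
noncomputable def pf {J : Type} (p : Fam J) (i : ℕ) : Fam J :=
  if i = 3 then fun _ _ r => 1 + r ^ (-3 / 20 : ℝ) else qf p i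

/-- The weights. -/
noncomputable def zf (C : Ch A) (p : Fam C.J) (l : ℝ) (i : ℕ) : Fam C.J :=
  qf p i * C.mon (ea i) (eb l i) (ee i)
noncomputable def Wf (C : Ch A) (p : Fam C.J) (l : ℝ) (i : ℕ) : Fam C.J :=
  (fun j u _ => c0 ^ i * gw (C.U0 j) (1 / 20) u) * (pf p i * C.mon (ea i) (eb l i) (ee i))
noncomputable def Bf (C : Ch A) (p : Fam C.J) (l : ℝ) (i : ℕ) : Fam C.J :=
  Wf C p l i * C.mon (ek i) 0 0
noncomputable def Df (C : Ch A) (p : Fam C.J) (l : ℝ) (i : ℕ) : Fam C.J :=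
  Wf C p l i * C.mon 0 0 (-1 - 1 / 20)

theorem at_mul (φ ψ : Fam C.J) (x : C.Pt) : C.at' (φ * ψ) x = C.at' φ x * C.at' ψ x := rfl
theorem at_add (φ ψ : Fam C.J) (x : C.Pt) : C.at' (φ + ψ) x = C.at' φ x + C.at' ψ x := rfl

section
variable (h : C.Is)
include h

theorem vv_lt (j : C.J) (u r : ℝ) : 2 * r < C.vv j u r := by
  have := yy_pos (u := u) (one_le_U0 h j)
  rw [Ch.vv]
  exact lt_add_of_pos_right _ (half_pos this)

theorem vv_pos' (j : C.J) (u : ℝ) {r : ℝ} (hr : 0 < r) : 0 < C.vv j u r := by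
  linarith [vv_lt h j u r]

theorem mon_pos' (a b e : ℝ) (j : C.J) (u : ℝ) {r : ℝ} (hr : 0 < r) : 0 < C.mon a b e j u r :=
  P354YF.mon_pos (a, b, e) hr (vv_pos' h j u hr) (ut_pos (one_le_U0 h j))

theorem smF_mon (a b e : ℝ) : SmF (C.mon a b e) := smF_iff.2 fun j q hq => by
  have U := one_le_U0 h j
  have k : ContDiffAt ℝ ∞ (fun q : ℝ × ℝ => C.ut j q.1) q := sm2_fst (c_ut U) q hq
  have v : ContDiffAt ℝ ∞ (fun q : ℝ × ℝ => C.vv j q.1 q.2) q :=
    (contDiffAt_const.mul contDiffAt_snd).add ((contDiffAt_fst.add k).div_const 2)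
  exact ((contDiffAt_snd.rpow_const_of_ne hq.ne').mul
    (v.rpow_const_of_ne (vv_pos' h j q.1 hq).ne')).mul
    (k.rpow_const_of_ne (ut_pos U).ne')

theorem du_mon (a b e : ℝ) (j : C.J) (u : ℝ) {r : ℝ} (hr : 0 < r) :
    HasDerivAt (fun u => C.mon a b e j u r) (C.mon a b e j u r *
      (b * (yy (C.U0 j) u / C.ut j u / 2 * (C.vv j u r)⁻¹) + e * (u / C.ut j u * (C.ut j u)⁻¹)))
      u := by
  have U := one_le_U0 h j
  have t : 0 < C.ut j u := ut_pos U
  have v : 0 < C.vv j u r := vv_pos' h j u hr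
  have c : HasDerivAt (fun u => C.vv j u r) (yy (C.U0 j) u / C.ut j u / 2) u :=
    ((d_yy U).div_const 2).const_add _
  have c' : HasDerivAt (C.ut j) (u / C.ut j u) u := d_ut U
  refine (((c.rpow_const (p := b) (Or.inl v.ne')).const_mul (r ^ a)).mul
    (c'.rpow_const (p := e) (Or.inl t.ne'))).congr_deriv ?_
  simp only [Ch.mon, Real.rpow_sub_one t.ne', Real.rpow_sub_one v.ne']
  ring

theorem dr_mon (a b e : ℝ) (j : C.J) (u : ℝ) {r : ℝ} (hr : 0 < r) :
    HasDerivAt (C.mon a b e j u) (C.mon a b e j u r * (a * r⁻¹ + b * (2 * (C.vv j u r)⁻¹))) r := by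
  have v : 0 < C.vv j u r := vv_pos' h j u hr
  have c : HasDerivAt (fun r => C.vv j u r) 2 r := by
    simpa [Ch.vv] using ((hasDerivAt_id r).const_mul 2).add_const ((u + C.ut j u) / 2)
  refine ((((hasDerivAt_id r).rpow_const (p := a) (Or.inl hr.ne')).mul
    (c.rpow_const (p := b) (Or.inl v.ne'))).mul_const (C.ut j u ^ e)).congr_deriv ?_
  simp only [Ch.mon, id, Real.rpow_sub_one hr.ne', Real.rpow_sub_one v.ne']
  ring

theorem at_pos (a b e : ℝ) (x : C.Pt) : 0 < C.at' (C.mon a b e) x := mon_pos' h _ _ _ _ _ (rr_pos h x)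

theorem tt_le (x : C.Pt) : tt C x ≤ 2 * C.vv x.1 (C.uu x) (C.rr x) := by
  have := (h.rng _ _ (h.dom x)).2
  have := rr_pos h x
  have := one_le_tt h x
  simp only [Ch.vv, tt] at *
  linarith

theorem at_mon (a b e a' b' e' : ℝ) (x : C.Pt) : C.at' (C.mon a b e) x * C.at' (C.mon a' b' e') x =
    C.at' (C.mon (a + a') (b + b') (e + e')) x :=
  (P354YF.mon_add (a, b, e) (a', b', e') (rr_pos h x) (vv_pos' h x.1 (C.uu x)
    (rr_pos h x)) (ut_pos (one_le_U0 h _))).symm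

theorem mon_le {a b e a' b' e' : ℝ} (x : C.Pt) (d : P354YF.Dom (a, b, e) (a', b', e'))
    (k : |b - b'| ≤ 2) : C.at' (C.mon a b e) x ≤ 16 * C.at' (C.mon a' b' e') x := by
  have r := rr_pos h x
  have v := vv_lt h x.1 (C.uu x) (C.rr x)
  have t := tt_le h x
  have y := yy_le (u := C.uu x) (one_le_U0 h x.1)
  refine (d.le (one_le_rr h x) (one_le_tt h x) (by linarith) (by linarith) (by
    simp only [Ch.vv, tt, yy, Ch.ut, ut] at *; linarith)).trans
    (mul_le_mul_of_nonneg_right ?_ (at_pos h a' b' e' x).le)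
  refine (Real.rpow_le_rpow_of_exponent_le (by norm_num) k).trans (le_of_eq ?_)
  norm_num

omit h in
theorem at_ri (x : C.Pt) : C.at' (C.mon (-1) 0 0) x = (C.rr x)⁻¹ := by
  simp [Ch.at', Ch.mon, Real.rpow_neg_one]
omit h in
theorem at_ga (x : C.Pt) : C.at' (C.mon 0 0 (-1 - 1 / 20)) x = ga C x := by
  simp only [Ch.at', Ch.mon, Real.rpow_zero, one_mul, ga, tt]
omit h in
theorem at_ti (x : C.Pt) : C.at' (C.mon 0 0 (-1)) x = (tt C x)⁻¹ := by
  simp [Ch.at', Ch.mon, Real.rpow_neg_one, tt]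

variable {p : Fam C.J} (sp : SmF p) (l : ℝ) (i : ℕ)
include sp

omit h in
theorem smF_qf : SmF (qf p i) := by
  unfold qf
  split_ifs
  exacts [sp, fun _ => contDiffOn_const]

omit h in
theorem smF_pf : SmF (pf p i) := by
  unfold pf
  split_ifs
  · exact smF_iff.2 fun _ q hq => contDiffAt_const.add (contDiffAt_snd.rpow_const_of_ne hq.ne')
  · exact smF_qf sp i

theorem smF_Wf : SmF (Wf C p l i) :=
  smF_mul (smF_iff.2 fun j => sm2_fst (contDiff_const.mul (c_gw (one_le_U0 h j))))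
    (smF_mul (smF_pf sp i) (smF_mon h _ _ _))
theorem smF_Bf : SmF (Bf C p l i) := smF_mul (smF_Wf h sp l i) (smF_mon h _ _ _)
theorem smF_Df : SmF (Df C p l i) := smF_mul (smF_Wf h sp l i) (smF_mon h _ _ _)

end

variable {F : NF A} {K : P354XZ.Cut C}

/-- The logarithmic derivative of the factor pf. -/
theorem d_pf (h : C.Is) (k : K.Is) (i : ℕ) (x : C.Pt) : ∃ q : ℝ,
    (∀ u, pf K.p i x.1 u (C.rr x) = C.at' (pf K.p i) x) ∧
    HasDerivAt (pf K.p i x.1 (C.uu x)) (C.at' (pf K.p i) x * q) (C.rr x) ∧ |q| ≤ 4 * (C.rr x)⁻¹ ∧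
    (i = 0 → 0 ≤ q ∧ q ≤ 19 / 5 * (C.rr x)⁻¹ - 28 / 5 * (C.vv x.1 (C.uu x) (C.rr x))⁻¹) ∧
    (i ≠ 0 → i ≠ 3 → q = 0) ∧ (i = 3 → q ≤ -(3 / 40 * C.at' (C.mon (ek 3) 0 0) x)) := by
  have r := rr_pos h x
  have ri := inv_pos.2 r
  by_cases c : i = 3
  · subst c
    have e : 0 < C.rr x ^ (-3 / 20 : ℝ) := Real.rpow_pos_of_pos r _
    have e1 : C.rr x ^ (-3 / 20 : ℝ) ≤ 1 :=
      Real.rpow_le_one_of_one_le_of_nonpos (one_le_rr h x) (by norm_num)
    have e2 : C.at' (C.mon (ek 3) 0 0) x = C.rr x ^ (-3 / 20 : ℝ) * (C.rr x)⁻¹ := by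
      simp only [Ch.at', Ch.mon, Real.rpow_zero, mul_one, ek, if_true]
      rw [← Real.rpow_neg_one, ← Real.rpow_add r]; norm_num
    refine ⟨-(3 / 20 * (C.rr x ^ (-3 / 20 : ℝ) * (C.rr x)⁻¹) / (1 + C.rr x ^ (-3 / 20 : ℝ))),
      fun u => by simp [pf, Ch.at'], ?_, ?_, by simp, by simp, fun _ => ?_⟩
    · simp only [pf, if_true, Ch.at']
      refine (((hasDerivAt_id (C.rr x)).rpow_const (Or.inl r.ne')).const_add 1).congr_deriv ?_
      simp only [id, Real.rpow_sub_one r.ne']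
      field_simp
    · rw [abs_neg, abs_of_pos (by positivity), div_le_iff₀ (by positivity)]
      nlinarith [mul_pos e ri]
    · rw [e2, neg_le_neg_iff, le_div_iff₀ (by positivity)]
      nlinarith [mul_le_mul_of_nonneg_left e1 (mul_pos e ri).le]
  by_cases c' : i = 0
  · subst c'
    have p0 : 0 < K.p x.1 (C.uu x) (C.rr x) := k.pos _ _ _ r
    obtain ⟨d1, d2⟩ := k.dp _ _ (h.dom x)
    have v := vv_pos' h x.1 (C.uu x) r
    have vi : 0 < (C.vv x.1 (C.uu x) (C.rr x))⁻¹ := inv_pos.2 v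
    have q2 : deriv (K.p x.1 (C.uu x)) (C.rr x) / K.p x.1 (C.uu x) (C.rr x) ≤
        19 / 5 * (C.rr x)⁻¹ - 28 / 5 * (C.vv x.1 (C.uu x) (C.rr x))⁻¹ := by
      rw [div_le_iff₀ p0]
      refine le_of_mul_le_mul_left (d2.trans (le_of_eq ?_)) r
      field_simp
    have q1 := div_nonneg d1 p0.le
    refine ⟨deriv (K.p x.1 (C.uu x)) (C.rr x) / K.p x.1 (C.uu x) (C.rr x),
      fun u => by simpa [pf, qf, Ch.at'] using k.pu _ _ _ _, ?_, ?_, fun _ => ⟨q1, q2⟩,
      by simp, by simp⟩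
    · simp only [pf, qf, Ch.at', if_true, if_neg c]
      rw [mul_div_cancel₀ _ p0.ne']
      exact (SmF.dr k.sm.2.2 r).differentiableAt.hasDerivAt
    · rw [abs_of_nonneg q1]; linarith
  · refine ⟨0, fun u => by simp [pf, qf, Ch.at', c, c'], ?_, by simpa using r.le, by simp [c'],
      by simp, by simp [c]⟩
    simp only [pf, qf, if_neg c, if_neg c', mul_zero]
    exact hasDerivAt_const _ _

theorem qf_pos (h : C.Is) (k : K.Is) (i : ℕ) (x : C.Pt) : 1 ≤ C.at' (qf K.p i) x := by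
  unfold qf
  split_ifs
  exacts [(k.ple _ _ (h.dom x)).1, le_rfl]

theorem zf_pos (h : C.Is) (k : K.Is) (l : ℝ) (i : ℕ) (x : C.Pt) : 0 < C.at' (zf C K.p l i) x :=
  mul_pos (one_pos.trans_le (qf_pos h k i x)) (at_pos h _ _ _ x)

/-- The weight is comparable with the monomial. -/
theorem Wf_le (h : C.Is) (k : K.Is) (l : ℝ) (i : ℕ) (x : C.Pt) :
    c0 ^ i * C.at' (zf C K.p l i) x ≤ C.at' (Wf C K.p l i) x ∧
      C.at' (Wf C K.p l i) x ≤ 4 * (c0 ^ i * C.at' (zf C K.p l i) x) := by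
  have q := qf_pos h k i x
  have e : C.at' (qf K.p i) x ≤ C.at' (pf K.p i) x ∧
      C.at' (pf K.p i) x ≤ 2 * C.at' (qf K.p i) x := by
    unfold pf
    split_ifs with c
    · have := Real.rpow_pos_of_pos (rr_pos h x) (-3 / 20 : ℝ)
      have := Real.rpow_le_one_of_one_le_of_nonpos (one_le_rr h x) (show (-3 / 20 : ℝ) ≤ 0 by
        norm_num)
      simp only [qf, c, Ch.at', if_neg (show (3 : ℕ) ≠ 0 by norm_num), Pi.one_apply]
      constructor <;> linarith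
    · constructor <;> linarith
  have m := at_pos h (ea i) (eb l i) (ee i) x
  have g1 := one_lt_gw (R := C.U0 x.1) (nu := 1 / 20) (u := C.uu x)
  have g2 := gw_le (R := C.U0 x.1) (nu := 1 / 20) (u := C.uu x)
  have c : 0 < c0 ^ i := by unfold c0; positivity
  have w : C.at' (Wf C K.p l i) x = c0 ^ i * (gw (C.U0 x.1) (1 / 20) (C.uu x) *
    (C.at' (pf K.p i) x * C.at' (C.mon (ea i) (eb l i) (ee i)) x)) := mul_assoc _ _ _
  have e1 := mul_le_mul_of_nonneg_right e.1 m.le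
  have e2 := mul_le_mul_of_nonneg_right e.2 m.le
  have e3 := mul_nonneg (show 0 ≤ C.at' (pf K.p i) x by linarith [e.1]) m.le
  rw [w, zf, at_mul, mul_left_comm 4]
  exact ⟨mul_le_mul_of_nonneg_left (e1.trans (le_mul_of_one_le_left e3 g1.le)) c.le,
    mul_le_mul_of_nonneg_left (by linarith [mul_le_mul_of_nonneg_right g2 e3]) c.le⟩

/-- The chain of the monomials. -/
theorem zf_chain (h : C.Is) (k : K.Is) (l : ℝ) {i : ℕ} (hi : i < 3) (x : C.Pt) :
    C.at' (zf C K.p l (i + 1)) x * (C.rr x)⁻¹ * (C.rr x)⁻¹ ≤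
      16 * (C.at' (zf C K.p l i) x * (C.rr x)⁻¹ * C.at' (C.mon (ek (i + 1)) 0 0) x) ∧
    C.at' (zf C K.p l (i + 1)) x * (C.rr x)⁻¹ ≤ 16 * (C.at' (zf C K.p l i) x * (C.rr x)⁻¹) ∧
    (i ≠ 0 → C.at' (zf C K.p l (i + 1)) x * (tt C x)⁻¹ ≤
      16 * (C.at' (zf C K.p l i) x * (C.rr x)⁻¹)) := by
  have q := qf_pos h k i x
  have e : C.at' (qf K.p (i + 1)) x = 1 := by simp [qf, Ch.at']
  have z : ∀ {a b : ℝ}, 0 < b → a ≤ 16 * b → a ≤ 16 * (C.at' (qf K.p i) x * b) := fun b0 ab =>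
    ab.trans (mul_le_mul_of_nonneg_left (le_mul_of_one_le_left b0.le q) (by norm_num))
  simp only [zf, at_mul, e, one_mul, ← at_ri, ← at_ti, mul_assoc, at_mon h]
  refine ⟨z (at_pos h _ _ _ x) (mon_le h x ?_ ?_), z (at_pos h _ _ _ x) (mon_le h x ?_ ?_),
    fun i0 => z (at_pos h _ _ _ x) (mon_le h x ?_ ?_)⟩ <;>
  interval_cases i <;> (try exact absurd rfl i0) <;>
  simp only [P354YF.Dom, ea, eb, ee, ek, abs_le, Nat.reduceAdd, Nat.reduceEqDiff, reduceIte] <;>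
  (repeat' apply And.intro) <;> linarith

end Vale.Agent.P354YP
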