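import Vale.Agent.P354YP.Tab

/-!
The weights of the far zone satisfy the inequalities of the table.
-/

namespace Vale.Agent.P354YP

open Vale.Agent.P354XG (Der D_mul D_add D_sub D_neg D_alg D_one D_num)
open Vale.Agent.P354XI Vale.Agent.P354XI.Ibp Vale.Agent.P354XZ Finset

variable {A : Type} [CommRing A] [Algebra ℂ A] {C : Ch A} {F : NF A} {K : P354XZ.Cut C}

theorem val_near (j : C.J) (y : (C.B j).Pt) (f g : A) {d : ℝ} (e : (C.B j).md y (f + g) ≤ d) :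
    |(C.B j).val y f + (C.B j).val y g| ≤ d := by
  rw [← val_add]; exact (abs_val_le _ _).trans e

theorem nm_of (h : C.Is) {x : C.Pt} {d : ℝ} (G : Gb C F x d) (d1 : d ≤ 1 / 100000) :
    Nm (C.rr x)⁻¹ (C.vv x.1 (C.uu x) (C.rr x))⁻¹ (tt C x)⁻¹ (ga C x) (C.rr x * ga C x)
      (yy (C.U0 x.1) (C.uu x) / tt C x / 2) (C.uu x / tt C x) (gd (C.U0 x.1) (1 / 20) (C.uu x))
      (C.val x (F.nc 0)) (C.val x (F.nc 1)) d := by
  have r := rr_pos h x
  have U := one_le_U0 h x.1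
  have v := vv_pos' h x.1 (C.uu x) r
  have t : 0 < tt C x := ut_pos U
  have g := ga_pos h x
  refine ⟨inv_pos.2 r, inv_pos.2 v, ?_, ?_, g, by positivity, by field_simp,
    by have := yy_pos (u := C.uu x) U; positivity, ?_, ?_, ?_, gd_le U (by norm_num),
    (md_nonneg _ _).trans G.nu, d1, ?_, ?_⟩
  · rw [← div_eq_mul_inv, div_le_iff₀ v, inv_mul_eq_div, le_div_iff₀ r]
    exact (vv_lt h _ _ _).le
  · rw [← div_eq_mul_inv, le_div_iff₀ t, inv_mul_eq_div, div_le_iff₀ v]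
    exact tt_le h x
  · rw [div_le_one two_pos, div_le_iff₀ t]; exact yy_le U
  · rw [abs_div, abs_of_pos t, div_le_one t]; exact abs_le_ut
  · refine le_of_eq_of_le ?_ (le_gd (nu := 1 / 20) U (by norm_num) (by norm_num))
    rw [ga, tt, Ch.ut, ut]; ring
  · have := val_near x.1 x.2 (F.nc 0) (-2) (d := d) (by rw [← sub_eq_add_neg]; exact G.nu)
    rwa [val_neg, val_two, ← sub_eq_add_neg] at this
  · have := val_near x.1 x.2 (F.nc 1) 1 G.nr
    rwa [val_one] at this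

theorem d_Wf (h : C.Is) (l : ℝ) (i : ℕ) (x : C.Pt) {q : ℝ}
    (q1 : ∀ u, pf K.p i x.1 u (C.rr x) = C.at' (pf K.p i) x)
    (q2 : HasDerivAt (pf K.p i x.1 (C.uu x)) (C.at' (pf K.p i) x * q) (C.rr x)) :
    HasDerivAt (fun u => Wf C K.p l i x.1 u (C.rr x)) (C.at' (Wf C K.p l i) x *
      (eb l i * (yy (C.U0 x.1) (C.uu x) / tt C x / 2 * (C.vv x.1 (C.uu x) (C.rr x))⁻¹) +
        ee i * (C.uu x / tt C x * (tt C x)⁻¹) - gd (C.U0 x.1) (1 / 20) (C.uu x))) (C.uu x) ∧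
    HasDerivAt (Wf C K.p l i x.1 (C.uu x)) (C.at' (Wf C K.p l i) x *
      (ea i * (C.rr x)⁻¹ + eb l i * (2 * (C.vv x.1 (C.uu x) (C.rr x))⁻¹) + q)) (C.rr x) := by
  have r := rr_pos h x
  constructor
  · simp only [Wf, Pi.mul_apply, q1]
    refine (((d_gw (one_le_U0 h x.1)).const_mul _).mul ((du_mon h _ _ _ _ _ r).const_mul
      _)).congr_deriv ?_
    simp only [Ch.at', Pi.mul_apply, tt]
    ring
  · refine ((q2.mul (dr_mon h (ea i) (eb l i) (ee i) _ _ r)).const_mul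
      (c0 ^ i * gw (C.U0 x.1) (1 / 20) (C.uu x))).congr_deriv ?_
    simp only [Ch.at', Wf, Pi.mul_apply]
    ring

theorem Wf_pos (h : C.Is) (k : K.Is) (l : ℝ) (i : ℕ) (x : C.Pt) : 0 < C.at' (Wf C K.p l i) x :=
  (mul_pos (by unfold c0; positivity) (zf_pos h k l i x)).trans_le (Wf_le h k l i x).1

theorem Wf_chain (h : C.Is) (k : K.Is) (l : ℝ) (i : ℕ) (x : C.Pt) {X Y : ℝ} (X0 : 0 ≤ X)
    (Y0 : 0 ≤ Y) (e : C.at' (zf C K.p l (i + 1)) x * X ≤ 16 * (C.at' (zf C K.p l i) x * Y)) :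
    C.at' (Wf C K.p l (i + 1)) x * X ≤ 64 * c0 * (C.at' (Wf C K.p l i) x * Y) := by
  have c : 0 < c0 := by unfold c0; positivity
  have a := mul_le_mul_of_nonneg_right (Wf_le h k l (i + 1) x).2 X0
  have b := mul_le_mul_of_nonneg_left (mul_le_mul_of_nonneg_right (Wf_le h k l i x).1 Y0) c.le
  have := mul_le_mul_of_nonneg_left e (pow_pos c (i + 1)).le
  rw [pow_succ] at a this
  linarith

theorem ex_le {l : ℝ} (hl : l ∈ Set.Icc (0 : ℝ) (1 / 100)) {i : ℕ} (hi : i < 4) :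
    |eb l i| ≤ 3 ∧ 0 ≤ ee i ∧ ee i ≤ 3 ∧ 0 ≤ ea i ∧ ea i ≤ 3 := by
  obtain ⟨l0, l1⟩ := hl
  interval_cases i <;> simp only [ea, eb, ee, abs_le, Nat.reduceEqDiff, reduceIte] <;>
    (repeat' apply And.intro) <;> linarith

/-- The dampings. -/
noncomputable def pA (C : Ch A) (a i : ℕ) : A := (((i + 1 : ℕ) : A) - (a : A)) * C.ri
noncomputable def pB (C : Ch A) (i : ℕ) : A := -(((4 - i : ℕ) : A) * C.ri)

section
variable (h : C.Is) (k : K.Is) {l : ℝ} (x : C.Pt)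
include h k

theorem vW (i : ℕ) : C.val x (C.fn (Wf C K.p l i)) = C.at' (Wf C K.p l i) x :=
  val_fn h (smF_Wf h k.sm.2.2 l i) x
theorem vB (i : ℕ) : C.val x (C.fn (Bf C K.p l i)) =
    C.at' (Wf C K.p l i) x * C.at' (C.mon (ek i) 0 0) x := val_fn h (smF_Bf h k.sm.2.2 l i) x
theorem vB' {i : ℕ} (hi : i ≠ 3) : C.val x (C.fn (Bf C K.p l i)) =
    C.at' (Wf C K.p l i) x * (C.rr x)⁻¹ := by rw [vB h k, ek, if_neg hi, at_ri]
theorem vD (i : ℕ) : C.val x (C.fn (Df C K.p l i)) = C.at' (Wf C K.p l i) x * ga C x :=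
  (val_fn h (smF_Df h k.sm.2.2 l i) x).trans (by rw [Df, at_mul, at_ga])

omit k in
theorem vi (u : A) : C.val x (u * C.ri) = (C.rr x)⁻¹ * C.val x u := by
  rw [mul_comm u, Ch.val, (h.ibp _).val_mul (re_ri h _), ← Ch.val, val_ri h, Ch.val]

theorem vsp (i : ℕ) (D : Der A) (e u : A) : C.val x (D (C.fn (Wf C K.p l i)) +
    e * C.fn (Wf C K.p l i) + 2 * (C.fn (Wf C K.p l i) * u)) =
    C.val x (D (C.fn (Wf C K.p l i))) + C.at' (Wf C K.p l i) x * (C.val x e + 2 * C.val x u) := by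
  have I := h.ibp x.1
  have r := re_fn h (smF_Wf h k.sm.2.2 l i) x.1
  rw [← vW h k]
  simp only [Ch.val]
  rw [val_add, val_add, mul_comm e, I.val_mul r, I.val_mul re_two, val_two, I.val_mul r]
  ring

variable {x} {d : ℝ} (G : Gb C F x d)
include G

theorem tab_n (a i : ℕ) : ∃ q : ℝ, (|q| ≤ 4 * (C.rr x)⁻¹ ∧ (i = 0 → 0 ≤ q)) ∧
    C.val x (F.n C (C.fn (Wf C K.p l i)) + dv C F.nc * C.fn (Wf C K.p l i) +
      2 * (C.fn (Wf C K.p l i) * pA C a i)) ≤ C.at' (Wf C K.p l i) x *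
    ((eb l i * (yy (C.U0 x.1) (C.uu x) / tt C x / 2 * (C.vv x.1 (C.uu x) (C.rr x))⁻¹) +
      ee i * (C.uu x / tt C x * (tt C x)⁻¹) - gd (C.U0 x.1) (1 / 20) (C.uu x)) * C.val x (F.nc 0) +
      (ea i * (C.rr x)⁻¹ + eb l i * (2 * (C.vv x.1 (C.uu x) (C.rr x))⁻¹) + q) * C.val x (F.nc 1) +
      d * ((C.rr x)⁻¹ + ga C x) + 2 * (i + 1) * (C.rr x)⁻¹) := by
  obtain ⟨q, q1, q2, q3, q4, -⟩ := d_pf h k i x
  obtain ⟨u1, u2⟩ := d_Wf h l i x q1 q2
  refine ⟨q, ⟨q3, fun e => (q4 e).1⟩, ?_⟩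
  have e2 : C.val x (dv C F.nc) ≤ _ := (le_abs_self _).trans ((abs_val_le _ _).trans G.dn)
  have e3 : C.val x (pA C a i) ≤ (i + 1) * (C.rr x)⁻¹ := by
    rw [pA, vi h, mul_comm]
    refine mul_le_mul_of_nonneg_right ?_ (inv_pos.2 (rr_pos h _)).le
    simp [Ch.val, Ibp.val]
  have W := (Wf_pos h k l i x).le
  rw [vsp h k, NF.n, val_vf_fn h (smF_Wf h k.sm.2.2 l i) F.nc x u1 u2]
  linarith [mul_le_mul_of_nonneg_left e2 W, mul_le_mul_of_nonneg_left e3 W]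

variable (d1 : d ≤ 1 / 100000) (hl : l ∈ Set.Icc (0 : ℝ) (1 / 100))
include d1 hl

theorem tab_n0 (a : ℕ) : C.val x (F.n C (C.fn (Wf C K.p l 0)) + dv C F.nc * C.fn (Wf C K.p l 0) +
    2 * (C.fn (Wf C K.p l 0) * pA C a 0)) ≤ -(1 / 1000 * C.val x (C.fn (Bf C K.p l 0))) -
      1 / 1000 * C.val x (C.fn (Df C K.p l 0)) := by
  obtain ⟨q, ⟨q1, q2⟩, e⟩ := tab_n (l := l) h k G a 0
  have b := ex_le hl (i := 0) (by norm_num)
  have := (nm_of h G d1).n0 (a := ea 0) (b := eb l 0) (by simp only [eb]; linarith [hl.2])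
    (abs_le.1 b.1).2 (q2 rfl) (abs_le.1 q1).2 (by simp [ea])
  rw [vB' h k x (by norm_num), vD h k]
  simp only [ee, Nat.cast_zero, zero_add, mul_one] at e
  linarith [mul_le_mul_of_nonneg_left this (Wf_pos h k l 0 x).le]

theorem tab_ni (a : ℕ) {i : ℕ} (hi : i < 3) : C.val x (F.n C (C.fn (Wf C K.p l (i + 1))) +
    dv C F.nc * C.fn (Wf C K.p l (i + 1)) + 2 * (C.fn (Wf C K.p l (i + 1)) * pA C a (i + 1))) ≤
    1 / 1000 / 4 * C.val x (C.fn (Bf C K.p l i)) -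
      1 / 1000 * C.val x (C.fn (Df C K.p l (i + 1))) := by
  obtain ⟨q, ⟨q1, -⟩, e⟩ := tab_n (l := l) h k G a (i + 1)
  obtain ⟨b1, b2, b3, b4, b5⟩ := ex_le hl (i := i + 1) (by omega)
  have N := (nm_of h G d1).ni b1 b2 q1 b4 b5
  have ri := (inv_pos.2 (rr_pos h x)).le
  have ti : 0 ≤ (tt C x)⁻¹ := inv_nonneg.2 ut_nonneg
  obtain ⟨-, z2, z3⟩ := zf_chain h k l hi x
  have w2 := Wf_chain h k l i _ ri ri z2
  have W := (Wf_pos h k l (i + 1) x).le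
  have W' := mul_nonneg (Wf_pos h k l i x).le ri
  have w3 : ee (i + 1) * (C.at' (Wf C K.p l (i + 1)) x * (tt C x)⁻¹) ≤
      3 * (64 * c0 * (C.at' (Wf C K.p l i) x * (C.rr x)⁻¹)) := by
    by_cases c : i = 0
    · subst c
      simp only [Nat.zero_add, ee, zero_mul, c0]
      positivity
    · exact mul_le_mul b3 (Wf_chain h k l i _ ti ri (z3 c)) (mul_nonneg W ti) (by norm_num)
  have i4 : ((i + 1 : ℕ) : ℝ) ≤ 3 := by exact_mod_cast (by omega : i + 1 ≤ 3)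
  have := mul_le_mul_of_nonneg_left (mul_le_mul_of_nonneg_right i4 ri) W
  rw [vB' h k x (by omega), vD h k]
  unfold c0 at w2 w3
  linarith [mul_le_mul_of_nonneg_left N W]

theorem tab_l {i : ℕ} (hi : i < 4) : C.val x (C.R (C.fn (Wf C K.p l i)) +
    0 * C.fn (Wf C K.p l i) + 2 * (C.fn (Wf C K.p l i) * pB C i)) ≤
    -(1 / 1000 * C.val x (C.fn (Bf C K.p l i))) := by
  obtain ⟨q, q1, q2, -, q4, q5, q6⟩ := d_pf h k i x
  have N := nm_of h G d1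
  have e2 : ea i * (C.rr x)⁻¹ + eb l i * (2 * (C.vv x.1 (C.uu x) (C.rr x))⁻¹) + q -
      2 * ((4 - i : ℕ) * (C.rr x)⁻¹) ≤ -(1 / 1000 * C.at' (C.mon (ek i) 0 0) x) := by
    have lw := mul_nonneg hl.1 N.w0.le
    have i0 := N.i0
    have wi := N.wi
    have p3 := at_pos h (ek 3) 0 0 x
    interval_cases i
    · have := (q4 rfl).2
      simp only [ea, eb, ek, Nat.reduceEqDiff, reduceIte, at_ri, Nat.reduceSub, Nat.cast_ofNat]
      linarith
    · have := q5 (by norm_num) (by norm_num)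
      simp only [ea, eb, ek, Nat.reduceEqDiff, reduceIte, at_ri, Nat.reduceSub, Nat.cast_ofNat]
      linarith
    · have := q5 (by norm_num) (by norm_num)
      simp only [ea, eb, ek, Nat.reduceEqDiff, reduceIte, at_ri, Nat.reduceSub, Nat.cast_ofNat]
      linarith
    · have := q6 rfl
      simp only [ea, eb, reduceIte, Nat.reduceSub, Nat.cast_one]
      linarith
  have e3 : C.val x (pB C i) = -((C.rr x)⁻¹ * (4 - i : ℕ)) := by
    rw [pB, ← neg_mul, vi h]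
    simp [Ch.val, Ibp.val]
  rw [vsp h k, vB h k, e3, val_R_fn h (smF_Wf h k.sm.2.2 l i) x (d_Wf h l i x q1 q2).2,
    show C.val x 0 = 0 from val_zero _]
  linarith [mul_le_mul_of_nonneg_left e2 (Wf_pos h k l i x).le]

theorem tab_m {i : ℕ} (hi : i < 4) :
    C.md x (F.m C (C.fn (Wf C K.p l i)) + dv C F.mc * C.fn (Wf C K.p l i)) ^ 2 ≤
    1 / 1000 / 4 * C.val x (C.fn (Bf C K.p l (i - 1))) *
      (1 / 1000 / 4 * C.val x (C.fn (Bf C K.p l i))) := by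
  obtain ⟨q, q1, q2, q3, -⟩ := d_pf h k i x
  obtain ⟨u1, u2⟩ := d_Wf h l i x q1 q2
  obtain ⟨b1, b2, b3, b4, b5⟩ := ex_le hl hi
  have W := Wf_pos h k l i x
  have ri := (inv_pos.2 (rr_pos h x)).le
  have e1 := md_vf_fn h (smF_Wf h k.sm.2.2 l i) F.mc x u1 u2
  have e2 := (nm_of h G d1).mi b1 b2 b3 q3 b4 b5
    (inv_mul_cancel₀ (ut_pos (one_le_U0 h x.1)).ne') (md_nonneg _ _) G.mu (md_nonneg _ _) G.mr
  have e3 : C.md x (F.m C (C.fn (Wf C K.p l i)) + dv C F.mc * C.fn (Wf C K.p l i)) ≤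
      1 / 4000 * (C.at' (Wf C K.p l i) x * (C.rr x)⁻¹) := by
    refine (md_add' _ _ _).trans ?_
    have e4 : C.md x (dv C F.mc * C.fn (Wf C K.p l i)) =
        C.md x (dv C F.mc) * C.at' (Wf C K.p l i) x := by
      rw [Ch.md, md_mul, (h.ibp _).md_re (re_fn h (smF_Wf h k.sm.2.2 l i) _), ← Ch.val, vW h k,
        abs_of_pos W, Ch.md]
    rw [abs_mul, abs_mul, abs_of_pos W] at e1
    rw [e4, NF.m]
    simp only [← Ch.md.eq_1] at e2
    linarith [mul_le_mul_of_nonneg_left e2 W.le, mul_le_mul_of_nonneg_left G.dm W.le]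
  refine (pow_le_pow_left₀ (md_nonneg _ _) e3 2).trans ?_
  rcases i with _ | i
  · rw [vB' h k x (by norm_num)]
    exact le_of_eq (by ring)
  · have m := at_pos h (ek (i + 1)) 0 0 x
    have z := (zf_chain h k l (i := i) (by omega) x).1
    rw [mul_assoc, mul_assoc] at z
    have w := Wf_chain h k l i _ (mul_nonneg ri ri) (mul_nonneg ri m.le) z
    have := mul_nonneg W.le (mul_nonneg (Wf_pos h k l i x).le (mul_nonneg ri m.le))
    rw [Nat.add_sub_cancel, vB' h k x (by omega), vB h k]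
    unfold c0 at w
    linarith [mul_le_mul_of_nonneg_left w W.le]

end

theorem tab2 (h : C.Is) (k : K.Is) (j : C.J) {d : ℝ} (G : ∀ y, Gb C F ⟨j, y⟩ d)
    (d1 : d ≤ 1 / 100000) {l : ℝ} (hl : l ∈ Set.Icc (0 : ℝ) (1 / 100)) (a : ℕ) :
    Tab2 (C.B j) C.R (F.n C) (F.m C) 0 (dv C F.nc) (dv C F.mc) (fun i => C.fn (Wf C K.p l i))
      (fun i => C.fn (Bf C K.p l i)) (fun i => C.fn (Df C K.p l i)) (pA C a) (pB C) (1 / 1000) where
  w0 i _ := ⟨re_fn h (smF_Wf h k.sm.2.2 l i) j, fun y =>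
    (Wf_pos h k l i ⟨j, y⟩).le.trans_eq (vW h k ⟨j, y⟩ i).symm⟩
  b0 i _ := ⟨re_fn h (smF_Bf h k.sm.2.2 l i) j, fun y =>
    (mul_pos (Wf_pos h k l i ⟨j, y⟩) (at_pos h _ _ _ _)).le.trans_eq (vB h k ⟨j, y⟩ i).symm⟩
  d0 i _ := ⟨re_fn h (smF_Df h k.sm.2.2 l i) j, fun y =>
    (mul_pos (Wf_pos h k l i ⟨j, y⟩) (ga_pos h _)).le.trans_eq (vD h k ⟨j, y⟩ i).symm⟩
  n0 y := tab_n0 h k (G y) d1 hl a
  ni i hi h0 y := by
    obtain ⟨i, rfl⟩ := Nat.exists_eq_succ_of_ne_zero h0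
    exact tab_ni h k (G y) d1 hl a (by omega)
  li _ hi y := tab_l h k (G y) d1 hl hi
  mi _ hi y := tab_m h k (G y) d1 hl hi

end Vale.Agent.P354YP
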